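import Vale.Agent.P028.W1.Defs

/-!
The deep band of one window.
-/

noncomputable section

namespace Vale.Agent.P028.W1

open Finset T2
open scoped Classical

variable {P : Sys}

theorem exists_band_le :
    ∃ C lam0 : ℝ, ∀ P : Sys, P.Ok0 lam0 → ∀ S : Finset ℕ, S ⊆ P.S →
      ∀ Λ : ℝ, (∀ q ∈ S, P.lam q = Λ) →
      ∑ v ∈ S, ∑ w ∈ S.filter (fun w => v ≠ w ∧
          dist2 P.ψ v w ≤ 2 * Real.exp (-(49 / 100 * Λ)) ∧ (P.goodSet v w).Nonempty),
          wt P.ψ v * wt P.ψ w / dist2 P.ψ v w ≤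
        C * Real.exp (-(Λ / 200)) * (mass P.ψ S + mass P.ψ S ^ 2) := by
  obtain ⟨C1, lam1, hC1⟩ := exists_threePath_le
  obtain ⟨C2, hC2⟩ := exists_card_diff_le
  refine ⟨max C1 0 * max C2 0 * 8, max lam1 20, fun P hP S hS Λ hΛS => ?_⟩
  have hψ : ∀ q, 0 ≤ P.ψ q := hP.nonneg
  set μ := mass P.ψ S with hμdef
  have hμ : 0 ≤ μ := BilinearAux.mass_nonneg hψ S
  rcases S.eq_empty_or_nonempty with rfl | ⟨q0, hq0⟩
  · simp [hμdef, mass]
  have hΛ : max lam1 20 ≤ Λ := hΛS q0 hq0 ▸ hP.lam_ge q0 (hS hq0)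
  have hΛ20 : 20 ≤ Λ := (le_max_right _ _).trans hΛ
  set p : ℝ := Real.exp (-(rhoC * Λ)) with hp
  have hp0 : 0 < p := Real.exp_pos _
  set x0 : ℝ := 2 * Real.exp (-(49 / 100 * Λ)) with hx0
  have hx0pos : 0 < x0 := by positivity
  have hx16 : x0 ≤ 1 / 16 := by
    have h : Real.exp (-(49 / 100 * Λ)) ≤ 1 / 32 := by
      rw [Real.exp_neg, one_div]
      refine inv_anti₀ (by norm_num) ?_
      calc (32 : ℝ) = 2 ^ 5 := by norm_num
        _ ≤ Real.exp 1 ^ 5 := pow_le_pow_left₀ (by norm_num) (by linarith [Real.exp_one_gt_d9]) 5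
        _ ≤ _ := by rw [← Real.exp_nat_mul]; exact Real.exp_le_exp.2 (by push_cast; linarith)
    linarith
  have hpψ : ∀ q ∈ S, p ≤ P.ψ q := fun q hq => by
    have := hP.le_psi q (hS hq)
    rwa [hΛS q hq] at this
  have hSq : ∀ q ∈ S, 0 < q ∧ P.ψ q ≤ Real.exp (-Λ) := fun q hq =>
    ⟨hP.pos q (hS hq), hΛS q hq ▸ hP.psi_le q (hS hq)⟩
  have hqd : ∀ v ∈ S, ∀ w ∈ S, p * qd w v ≤ dist2 P.ψ v w ∧ p * qd v w ≤ dist2 P.ψ v w :=
    fun v hv w hw => ⟨(mul_le_mul_of_nonneg_right (hpψ v hv) (Nat.cast_nonneg _)).trans (le_max_left _ _),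
      (mul_le_mul_of_nonneg_right (hpψ w hw) (Nat.cast_nonneg _)).trans (le_max_right _ _)⟩
  have hDp : ∀ v ∈ S, ∀ w ∈ S, p ≤ dist2 P.ψ v w := fun v hv w hw =>
    le_trans (le_mul_of_one_le_right hp0.le
      (by exact_mod_cast cl_qd_pos (hSq w hw).1)) (hqd v hv w hw).1
  set T : ℝ := 4 * Real.exp (511 / 1000 * Λ) with hT
  have hxp : x0 / p = 2 * Real.exp (511 / 1000 * Λ) := by
    rw [hx0, hp, mul_div_assoc, ← Real.exp_sub]; congr 2; rw [rhoC]; ring
  obtain ⟨N, hN⟩ := pow_unbounded_of_one_lt (x0 / p) (show (1 : ℝ) < 2 by norm_num)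
  set xk : ℕ → ℝ := fun k => x0 / 2 ^ k with hxk
  set cond : ℕ → ℕ → ℕ → Prop := fun k v w =>
    v ≠ w ∧ dist2 P.ψ v w ≤ xk k ∧ (P.goodSet v w).Nonempty with hcond
  have hwt := BilinearAux.wt_nonneg hψ
  have hterm : ∀ v ∈ S, ∀ w ∈ S, (v ≠ w ∧ dist2 P.ψ v w ≤ x0 ∧ (P.goodSet v w).Nonempty) →
      wt P.ψ v * wt P.ψ w / dist2 P.ψ v w ≤ ∑ k ∈ range N,
        if cond k v w then 2 / xk k * (wt P.ψ v * wt P.ψ w) else 0 := by
    intro v hv w hw ⟨hvw, hD, hg⟩
    set D := dist2 P.ψ v w with hDdef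
    have hD0 : 0 < D := hp0.trans_le (hDp v hv w hw)
    have hex : ∃ k, xk (k + 1) < D := ⟨N, by
      refine lt_of_lt_of_le ?_ (hDp v hv w hw)
      simp only [hxk]
      rw [div_lt_iff₀ (by positivity), pow_succ, ← mul_assoc]
      rw [div_lt_iff₀ hp0] at hN
      nlinarith [show (0 : ℝ) < p * 2 ^ N by positivity]⟩
    set k := Nat.find hex with hk
    have hk1 : xk (k + 1) < D := Nat.find_spec hex
    have hk2 : D ≤ xk k := by
      rcases Nat.eq_zero_or_pos k with h | h
      · simpa [hxk, h] using hD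
      · have := Nat.find_min hex (show k - 1 < k by omega)
        rw [Nat.sub_add_cancel h] at this
        exact not_lt.1 this
    have hkN : k ∈ range N := by
      rw [mem_range]
      by_contra hc
      have h1 : xk k ≤ xk N := by
        simp only [hxk]
        exact div_le_div_of_nonneg_left hx0pos.le (by positivity)
          (pow_le_pow_right₀ (by norm_num) (not_lt.1 hc))
      have h2 : xk N < p := by
        simp only [hxk]
        rw [div_lt_iff₀ (by positivity), mul_comm, ← div_lt_iff₀ hp0]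
        exact hN
      linarith [hDp v hv w hw]
    have hnn : ∀ i ∈ range N, 0 ≤ if cond i v w then 2 / xk i * (wt P.ψ v * wt P.ψ w) else 0 := by
      intro i _
      split_ifs
      · exact mul_nonneg (by positivity) (mul_nonneg (hwt v) (hwt w))
      · exact le_rfl
    refine le_trans ?_ (single_le_sum hnn hkN)
    rw [if_pos (show cond k v w from ⟨hvw, hk2, hg⟩), div_eq_inv_mul]
    refine mul_le_mul_of_nonneg_right ?_ (mul_nonneg (hwt v) (hwt w))
    have e : xk (k + 1) = xk k / 2 := by simp only [hxk, pow_succ]; ring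
    rw [← one_div, div_le_div_iff₀ hD0 (by positivity)]
    linarith
  have hlevel : ∀ k, ∑ v ∈ S, ∑ w ∈ S, (if cond k v w then wt P.ψ v * wt P.ψ w else 0) ≤
      max C2 0 * (xk k ^ 2 / p) * (max C1 0 * Real.exp (-(52 / 100 * Λ)) * (μ + μ ^ 2)) := by
    intro k
    set M : Finset ℤ := ((S ×ˢ S).filter fun u => cond k u.1 u.2).image
      (fun u => mdiff u.1 u.2) with hM
    have hxk0 : 0 < xk k := by positivity
    have hxkx : xk k ≤ x0 := div_le_self hx0pos.le (one_le_pow₀ (by norm_num))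
    have hshort : ShortVec P.γ p (P.A q0) (P.B q0) := by
      have := hP.short q0 (hS hq0)
      rwa [hΛS q0 hq0] at this
    have hMc : (M.card : ℝ) ≤ C2 * (xk k ^ 2 / p) := by
      refine hC2 P.γ p (xk k) (P.A q0) (P.B q0) M hshort hp0 hxk0 (hxkx.trans hx16) fun m hm => ?_
      obtain ⟨⟨v, w⟩, hu, rfl⟩ := mem_image.1 hm
      obtain ⟨hu0, -, hD, n, hn⟩ := mem_filter.1 hu
      obtain ⟨hv, hw⟩ := mem_product.1 hu0
      dsimp only at hv hw hD hn ⊢
      refine ⟨?_, n, ?_, ?_⟩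
      · obtain ⟨h1, h2⟩ := hqd v hv w hw
        have h3 : (0 : ℝ) ≤ p * qd w v := by positivity
        have h4 : (0 : ℝ) ≤ p * qd v w := by positivity
        rw [← abs_of_pos hp0, ← abs_mul, mdiff, abs_le]
        push_cast
        constructor <;> nlinarith
      · obtain ⟨hn1, -⟩ := mem_filter.1 hn
        have := (mem_filter.1 hn1).2
        linarith
      · obtain ⟨-, hgood⟩ := mem_filter.1 hn
        obtain ⟨e1, e2⟩ := hP.const v (hS hv) q0 (hS hq0) ((hΛS v hv).trans (hΛS q0 hq0).symm)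
        obtain ⟨e3, e4⟩ := hP.const v (hS hv) w (hS hw) ((hΛS v hv).trans (hΛS w hw).symm)
        rw [← e1, ← e2]
        exact fun h0 => hgood ⟨e3, e4, h0⟩
    have hMne : ∀ m ∈ M, m ≠ 0 := by
      intro m hm
      obtain ⟨⟨v, w⟩, hu, rfl⟩ := mem_image.1 hm
      obtain ⟨hu0, hvw, -⟩ := mem_filter.1 hu
      obtain ⟨hv, -⟩ := mem_product.1 hu0
      intro h0
      refine hvw ?_
      have e : qd w v = qd v w := by simp only [mdiff] at h0; omega
      have h1 : qd v w = 1 := by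
        have := cl_coprime_qd (r := w) (hSq v hv).1
        rwa [e, Nat.coprime_self] at this
      have hc := qd_cross v w
      rw [e, h1, mul_one, mul_one] at hc
      exact hc
    have hsum : ∑ v ∈ S, ∑ w ∈ S, (if cond k v w then wt P.ψ v * wt P.ψ w else 0) ≤
        ∑ m ∈ M, ∑ v ∈ S, ∑ w ∈ S.filter (fun w => v ≠ w ∧ mdiff v w = m ∧
          (qd v w : ℝ) ≤ T ∧ (qd w v : ℝ) ≤ T), wt P.ψ v * wt P.ψ w := by
      rw [sum_comm (s := M)]
      refine sum_le_sum fun v hv => ?_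
      simp only [sum_filter]
      rw [sum_comm (s := M)]
      refine sum_le_sum fun w hw => ?_
      by_cases hc : cond k v w
      · obtain ⟨h1, h2⟩ := hqd v hv w hw
        have hle : ∀ q : ℕ, p * q ≤ dist2 P.ψ v w → (q : ℝ) ≤ T := fun q hq => by
          have hq' : (q : ℝ) * p ≤ x0 := by linarith [hc.2.1]
          rw [← le_div_iff₀ hp0, hxp] at hq'
          linarith [Real.exp_pos (511 / 1000 * Λ)]
        have hmem : mdiff v w ∈ M :=
          mem_image.2 ⟨(v, w), mem_filter.2 ⟨mem_product.2 ⟨hv, hw⟩, hc⟩, rfl⟩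
        rw [if_pos hc]
        refine le_trans (le_of_eq ?_) (single_le_sum (fun i _ => ?_) hmem)
        · rw [if_pos ⟨hc.1, rfl, hle _ h2, hle _ h1⟩]
        · split_ifs
          · exact mul_nonneg (hwt v) (hwt w)
          · exact le_rfl
      · rw [if_neg hc]
        refine sum_nonneg fun i _ => ?_
        split_ifs
        · exact mul_nonneg (hwt v) (hwt w)
        · exact le_rfl
    refine hsum.trans ?_
    have hX : 0 ≤ Real.exp (-(52 / 100 * Λ)) * (μ + μ ^ 2) := by positivity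
    calc ∑ m ∈ M, _ ≤ ∑ _m ∈ M, max C1 0 * Real.exp (-(52 / 100 * Λ)) * (μ + μ ^ 2) :=
          sum_le_sum fun m hm =>
            (hC1 P.ψ S Λ m ((le_max_left _ _).trans hΛ) (hMne m hm) hψ hSq).trans (by
              rw [mul_assoc, mul_assoc]
              exact mul_le_mul_of_nonneg_right (le_max_left _ _) hX)
      _ = M.card * (max C1 0 * Real.exp (-(52 / 100 * Λ)) * (μ + μ ^ 2)) := by
          rw [sum_const, nsmul_eq_mul]
      _ ≤ _ := mul_le_mul_of_nonneg_right
          (hMc.trans (mul_le_mul_of_nonneg_right (le_max_left _ _) (by positivity)))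
          (by positivity)
  have hgeo : ∑ k ∈ range N, xk k ≤ 2 * x0 := by
    have e : ∀ k, xk k = x0 * (1 / 2 : ℝ) ^ k := fun k => by
      simp only [hxk, div_eq_mul_inv, one_mul, inv_pow]
    simp only [e, ← mul_sum]
    have := sum_geometric_two_le N
    nlinarith
  calc ∑ v ∈ S, ∑ w ∈ S.filter (fun w => v ≠ w ∧ dist2 P.ψ v w ≤ x0 ∧ (P.goodSet v w).Nonempty),
        wt P.ψ v * wt P.ψ w / dist2 P.ψ v w
      ≤ ∑ v ∈ S, ∑ w ∈ S, ∑ k ∈ range N,
          if cond k v w then 2 / xk k * (wt P.ψ v * wt P.ψ w) else 0 := by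
        refine sum_le_sum fun v hv => ?_
        rw [sum_filter]
        refine sum_le_sum fun w hw => ?_
        split_ifs with h
        · exact hterm v hv w hw h
        · refine sum_nonneg fun i _ => ?_
          split_ifs
          · exact mul_nonneg (by positivity) (mul_nonneg (hwt v) (hwt w))
          · exact le_rfl
    _ = ∑ k ∈ range N, 2 / xk k *
          ∑ v ∈ S, ∑ w ∈ S, (if cond k v w then wt P.ψ v * wt P.ψ w else 0) := by
        rw [sum_comm_cycle]
        simp only [mul_sum, mul_ite, mul_zero]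
    _ ≤ ∑ k ∈ range N, 2 / xk k * (max C2 0 * (xk k ^ 2 / p) *
          (max C1 0 * Real.exp (-(52 / 100 * Λ)) * (μ + μ ^ 2))) :=
        sum_le_sum fun k _ => mul_le_mul_of_nonneg_left (hlevel k) (by positivity)
    _ = max C1 0 * max C2 0 * 2 / p * Real.exp (-(52 / 100 * Λ)) * (μ + μ ^ 2) *
          ∑ k ∈ range N, xk k := by
        rw [mul_sum]
        refine sum_congr rfl fun k _ => ?_
        have : xk k ≠ 0 := by positivity
        field_simp
    _ ≤ max C1 0 * max C2 0 * 2 / p * Real.exp (-(52 / 100 * Λ)) * (μ + μ ^ 2) * (2 * x0) :=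
        mul_le_mul_of_nonneg_left hgeo (by positivity)
    _ = max C1 0 * max C2 0 * 4 * (x0 / p * Real.exp (-(52 / 100 * Λ))) * (μ + μ ^ 2) := by ring
    _ ≤ max C1 0 * max C2 0 * 4 * (2 * Real.exp (-(Λ / 200))) * (μ + μ ^ 2) := by
        refine mul_le_mul_of_nonneg_right (mul_le_mul_of_nonneg_left ?_ (by positivity))
          (by positivity)
        rw [hxp, mul_assoc, ← Real.exp_add]
        exact mul_le_mul_of_nonneg_left (Real.exp_le_exp.2 (by linarith)) (by norm_num)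
    _ = _ := by ring

end Vale.Agent.P028.W1
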