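import Vale.Agent.P028.T2.Periodic
import Vale.Agent.P028.T2.Exc
import Vale.Agent.P028.T2.Kill
import Vale.Agent.P028.T2.Band

/-!
Systems in one window: no hypothesis on the size of the moduli.
-/

noncomputable section

namespace Vale.Agent.P028.T2

open Finset

/-- The hypotheses on a system, without a bound on the moduli. -/
structure Sys.Ok0 (P : Sys) (lam0 : ℝ) : Prop where
  gamma_nonneg : 0 ≤ P.γ
  gamma_lt : P.γ < 1
  nonneg : ∀ q, 0 ≤ P.ψ q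
  pos : ∀ q ∈ P.S, 0 < q
  psi_pos : ∀ q ∈ P.S, 0 < P.ψ q
  le_psi : ∀ q ∈ P.S, Real.exp (-(rhoC * P.lam q)) ≤ P.ψ q
  psi_le : ∀ q ∈ P.S, P.ψ q ≤ Real.exp (-(P.lam q))
  lam_ge : ∀ q ∈ P.S, lam0 ≤ P.lam q
  short : ∀ q ∈ P.S, ShortVec P.γ (Real.exp (-(rhoC * P.lam q))) (P.A q) (P.B q)
  const : ∀ q ∈ P.S, ∀ r ∈ P.S, P.lam q = P.lam r → P.A q = P.A r ∧ P.B q = P.B r

end Vale.Agent.P028.T2
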