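import Vale.Agent.P028.W1.Defs

/-!
The pairs on the common line of one window.
-/

noncomputable section

namespace Vale.Agent.P028.W1

open Finset T2
open scoped Classical

variable {P : Sys}

theorem exc_below {P : Sys} {lam0 : ℝ} (h : P.Ok0 lam0) {q r : ℕ} (hr : r ∈ P.S)
    (he : P.Exc q r) :
    (P.ψ q ≤ P.ψ r → Below P q r) ∧ (P.ψ r ≤ P.ψ q → Below P r q) := by
  obtain ⟨hne, hA, hB, ⟨n, hn, hz⟩, hy1, hy2⟩ := he
  have hB0 : (0 : ℝ) < P.B r := Nat.cast_pos.2 (h.short r hr).B_pos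
  rw [zform, hA, hB] at hz
  have hdvd : (P.B r : ℤ) ∣ mdiff q r :=
    (h.short r hr).coprime.symm.dvd_of_dvd_mul_left ⟨-n, by linear_combination hz⟩
  have hz' : (n : ℝ) * P.B r + P.A r * (mdiff q r : ℝ) = 0 := by exact_mod_cast hz
  have habs : |(mdiff q r : ℝ)| * |(P.B r : ℝ) * P.γ - P.A r| <
      2 * P.B r * dist2 P.ψ q r := by
    have e : (mdiff q r : ℝ) * ((P.B r : ℝ) * P.γ - P.A r) =
        (P.B r : ℝ) * ((n : ℝ) + P.γ * mdiff q r) := by linear_combination -hz'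
    have hlt := (mem_filter.1 hn).2
    calc |(mdiff q r : ℝ)| * |(P.B r : ℝ) * P.γ - P.A r|
        = (P.B r : ℝ) * |(n : ℝ) + P.γ * mdiff q r| := by
          rw [← abs_mul, e, abs_mul, abs_of_pos hB0]
      _ < (P.B r : ℝ) * (2 * dist2 P.ψ q r) := mul_lt_mul_of_pos_left hlt hB0
      _ = _ := by ring
  refine ⟨fun hp => ⟨hne, hp, hA, hB, hdvd, habs, hy1, hy2⟩,
    fun hp => ⟨hne.symm, hp, hA.symm, hB.symm, ?_, ?_, hy2, hy1⟩⟩
  · rw [hB, show mdiff r q = -mdiff q r by simp [mdiff]]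
    exact hdvd.neg_right
  · rw [hA, hB, show mdiff r q = -mdiff q r by simp [mdiff], BilinearAux.dist2_comm,
      Int.cast_neg, abs_neg]
    exact habs

/-- One pair below: the term decays in the level, whose cut both quotients respect. -/
theorem below_term_le {P : Sys} {lam0 : ℝ} (h : P.Ok0 lam0) {v w : ℕ} (hv : v ∈ P.S) (hw : w ∈ P.S)
    (hb : Below P v w) :
    ∃ j : ℕ, (∀ p ∈ (qd v w).primeFactors, p ≤ excCut j) ∧
      (∀ p ∈ (qd w v).primeFactors, p ≤ excCut j) ∧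
      P.ψ v / dist2 P.ψ v w ≤ Real.exp (-((j : ℝ) / 4)) *
        ((qd v w : ℝ) ^ (-(1 / 4) : ℝ) * (qd w v : ℝ) ^ (-(1 / 4) : ℝ)) := by
  obtain ⟨hne, hpsi, hA, hB, hdvd, habs, hy1, hy2⟩ := hb
  have hpv : 0 < P.ψ v := h.psi_pos v hv
  have hpw : 0 < P.ψ w := h.psi_pos w hw
  set δ := |(P.B w : ℝ) * P.γ - P.A w| with hδ
  have hδ0 : 0 ≤ δ := abs_nonneg _
  have hB0 : (0 : ℝ) < P.B w := Nat.cast_pos.2 (h.short w hw).B_pos
  have hapos : 0 < qd v w := BilinearAux.qd_pos (h.pos v hv)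
  have hbpos : 0 < qd w v := BilinearAux.qd_pos (h.pos w hw)
  set a := (qd v w : ℝ) with had
  set b := (qd w v : ℝ) with hbd
  have ha : (1 : ℝ) ≤ a := Nat.one_le_cast.2 hapos
  have hb : (1 : ℝ) ≤ b := Nat.one_le_cast.2 hbpos
  have hm0 : mdiff v w ≠ 0 := by
    intro h0
    have e : qd w v = qd v w := by
      simp only [mdiff, sub_eq_zero] at h0
      exact_mod_cast h0
    apply hne
    calc v = Nat.gcd v w * qd v w := (Nat.mul_div_cancel' (Nat.gcd_dvd_left v w)).symm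
      _ = Nat.gcd w v * qd w v := by rw [Nat.gcd_comm, e]
      _ = w := Nat.mul_div_cancel' (Nat.gcd_dvd_left w v)
  have hBm : (P.B w : ℝ) ≤ |(mdiff v w : ℝ)| := by
    have := Int.le_of_dvd (abs_pos.2 hm0) ((dvd_abs _ _).2 hdvd)
    exact_mod_cast this
  set M := max a b with hMd
  have hmM : |(mdiff v w : ℝ)| ≤ M := by
    simp only [mdiff, Int.cast_sub, Int.cast_natCast]
    rw [abs_le]
    constructor <;> linarith [le_max_left a b, le_max_right a b]
  set D := dist2 P.ψ v w with hDd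
  have hD1 : P.ψ v * b ≤ D := le_max_left _ _
  have hD2 : P.ψ w * a ≤ D := le_max_right _ _
  have hD0 : 0 < D := lt_of_lt_of_le (mul_pos hpv (one_pos.trans_le hb)) hD1
  have hDM : D ≤ P.ψ w * M :=
    max_le (mul_le_mul hpsi (le_max_right _ _) (by linarith) hpw.le)
      (mul_le_mul_of_nonneg_left (le_max_left _ _) hpw.le)
  have hδ2 : δ ≤ 2 * (P.ψ w * M) := by
    have h1 : (P.B w : ℝ) * δ ≤ |(mdiff v w : ℝ)| * δ := mul_le_mul_of_nonneg_right hBm hδ0
    have h2 : (P.B w : ℝ) * δ ≤ (P.B w : ℝ) * (2 * D) := by linarith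
    linarith [le_of_mul_le_mul_left h2 hB0]
  set κ := P.ψ w / P.ψ v with hκd
  have hκ : 1 ≤ κ := (one_le_div hpv).2 hpsi
  set Z := a * b * κ with hZd
  have hM1 : 1 ≤ M := ha.trans (le_max_left _ _)
  have hMab : M ≤ a * b := max_le (le_mul_of_one_le_right (by linarith) hb)
    (le_mul_of_one_le_left (by linarith) ha)
  have hMκ : M * κ ≤ Z := mul_le_mul_of_nonneg_right hMab (by linarith)
  have hZ1 : 1 ≤ Z := le_trans (one_le_mul_of_one_le_of_one_le hM1 hκ) hMκ
  set j := ⌊Real.log Z⌋₊ with hjd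
  have hlog5 : Real.log 5 ≤ 2 := by
    rw [Real.log_le_iff_le_exp (by norm_num)]
    have := Real.add_one_le_exp 1
    have e : Real.exp (2 : ℝ) = Real.exp 1 ^ 2 := by rw [← Real.exp_nat_mul]; norm_num
    rw [e]
    nlinarith [Real.exp_one_gt_d9]
  have hcut : ∀ z : ℕ, z = v ∨ z = w → P.y z ≤ excCut j := by
    intro z hz
    have hX : 2 + (P.B w : ℝ) + δ / P.ψ z ≤ 5 * Z := by
      have h1 : δ / P.ψ z ≤ 2 * (M * κ) := by
        rcases hz with rfl | rfl
        · rw [div_le_iff₀ hpv]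
          refine hδ2.trans (le_of_eq ?_)
          rw [hκd]; field_simp
        · rw [div_le_iff₀ hpw]
          refine hδ2.trans ?_
          nlinarith [mul_nonneg (mul_nonneg hpw.le (zero_le_one.trans hM1)) (sub_nonneg.2 hκ)]
      have h2 : M ≤ M * κ := le_mul_of_one_le_right (zero_le_one.trans hM1) hκ
      linarith [hBm.trans hmM]
    have hpz : 0 ≤ P.ψ z := h.nonneg z
    have hXpos : 0 < 2 + (P.B w : ℝ) + δ / P.ψ z := by positivity
    have hle : Real.log (2 + (P.B w : ℝ) + δ / P.ψ z) ≤ (j : ℝ) + 3 := by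
      refine (Real.log_le_log hXpos hX).trans ?_
      rw [Real.log_mul (by norm_num) (by linarith)]
      have := Nat.lt_floor_add_one (Real.log Z)
      linarith
    have e : P.y z = ⌈Real.sqrt (Real.log (2 + (P.B w : ℝ) + δ / P.ψ z))⌉₊ := by
      rcases hz with rfl | rfl <;> simp only [Sys.y, yCut, hA, hB, hδ]
    rw [e]
    exact Nat.ceil_mono (Real.sqrt_le_sqrt hle)
  refine ⟨j, fun p hp => (hy1 p hp).trans (hcut v (Or.inl rfl)),
    fun p hp => (hy2 p hp).trans (hcut w (Or.inr rfl)), ?_⟩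
  have h1 : (P.ψ v / D) ^ 2 ≤ 1 / Z := by
    rw [div_pow, div_le_div_iff₀ (pow_pos hD0 2) (by linarith)]
    have h3 := mul_le_mul hD1 hD2 (by positivity) hD0.le
    have e : P.ψ v ^ 2 * Z = P.ψ v * b * (P.ψ w * a) := by
      rw [hZd, hκd]; field_simp
    rw [e, one_mul, sq]
    exact h3
  have h2 : P.ψ v / D ≤ Z ^ (-(1 / 4) : ℝ) * Z ^ (-(1 / 4) : ℝ) := by
    rw [← Real.rpow_add (by linarith)]
    refine le_of_pow_le_pow_left₀ (two_ne_zero (α := ℕ)) (by positivity) (h1.trans (le_of_eq ?_))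
    rw [← Real.rpow_natCast _ 2, ← Real.rpow_mul (by linarith)]
    norm_num [Real.rpow_neg_one]
  refine h2.trans (mul_le_mul ?_ ?_ (by positivity) (Real.exp_pos _).le)
  · rw [Real.rpow_def_of_pos (by linarith), Real.exp_le_exp]
    have := Nat.floor_le (Real.log_nonneg hZ1)
    linarith
  · rw [← Real.mul_rpow (by linarith) (by linarith)]
    exact Real.rpow_le_rpow_of_nonpos (by positivity)
      (le_mul_of_one_le_right (by positivity) hκ) (by norm_num)

/-- The pairs below one modulus. -/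
theorem sum_below_le {P : Sys} {lam0 : ℝ} (h : P.Ok0 lam0) {w : ℕ} (hw : w ∈ P.S) :
    ∑ v ∈ P.S.filter (fun v => Below P v w), P.ψ v / dist2 P.ψ v w ≤
      Real.exp 56 * (1 - Real.exp (-(1 / 8)))⁻¹ := by
  set V := P.S.filter (fun v => Below P v w)
  have hex : ∀ v ∈ V, ∃ j : ℕ, (∀ p ∈ (qd v w).primeFactors, p ≤ excCut j) ∧
      (∀ p ∈ (qd w v).primeFactors, p ≤ excCut j) ∧
      P.ψ v / dist2 P.ψ v w ≤ Real.exp (-((j : ℝ) / 4)) *
        ((qd v w : ℝ) ^ (-(1 / 4) : ℝ) * (qd w v : ℝ) ^ (-(1 / 4) : ℝ)) :=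
    fun v hv => below_term_le h (mem_filter.1 hv).1 hw (mem_filter.1 hv).2
  choose! J hJ1 hJ2 hJ3 using hex
  set N := V.sup J + 1
  refine (sum_le_sum hJ3).trans ?_
  rw [← sum_fiberwise_of_maps_to (g := J) (t := range N)
    fun v hv => mem_range.2 (Nat.lt_succ_of_le (le_sup hv))]
  have hfib : ∀ j ∈ range N, ∑ v ∈ V with J v = j, Real.exp (-((J v : ℝ) / 4)) *
      ((qd v w : ℝ) ^ (-(1 / 4) : ℝ) * (qd w v : ℝ) ^ (-(1 / 4) : ℝ)) ≤
      Real.exp 56 * Real.exp (-(1 / 8)) ^ j := by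
    intro j _
    set W := V.filter (fun v => J v = j)
    have hWv : ∀ v ∈ W, v ∈ P.S ∧ J v = j := fun v hv =>
      ⟨(mem_filter.1 (mem_filter.1 hv).1).1, (mem_filter.1 hv).2⟩
    calc ∑ v ∈ W, Real.exp (-((J v : ℝ) / 4)) *
          ((qd v w : ℝ) ^ (-(1 / 4) : ℝ) * (qd w v : ℝ) ^ (-(1 / 4) : ℝ))
        = Real.exp (-((j : ℝ) / 4)) * ∑ z ∈ W.image (fun v => (qd v w, qd w v)),
            ((z.1 : ℝ) ^ (-(1 / 4) : ℝ) * (z.2 : ℝ) ^ (-(1 / 4) : ℝ)) := by
          rw [sum_image, mul_sum]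
          · exact sum_congr rfl fun v hv => by rw [(hWv v hv).2]
          intro v1 h1 v2 h2 he
          simp only [Prod.mk.injEq] at he
          have hp := BilinearAux.qd_pos (w := v1) (h.pos w hw)
          have e1 : Nat.gcd w v1 * qd w v1 = w := Nat.mul_div_cancel' (Nat.gcd_dvd_left w v1)
          have e2 : Nat.gcd w v2 * qd w v2 = w := Nat.mul_div_cancel' (Nat.gcd_dvd_left w v2)
          rw [← he.2] at e2
          have eg : Nat.gcd w v1 = Nat.gcd w v2 :=
            Nat.eq_of_mul_eq_mul_right hp (e1.trans e2.symm)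
          calc v1 = Nat.gcd w v1 * qd v1 w := by
                rw [Nat.gcd_comm]; exact (Nat.mul_div_cancel' (Nat.gcd_dvd_left v1 w)).symm
            _ = Nat.gcd w v2 * qd v2 w := by rw [eg, he.1]
            _ = v2 := by rw [Nat.gcd_comm]; exact Nat.mul_div_cancel' (Nat.gcd_dvd_left v2 w)
      _ ≤ Real.exp (-((j : ℝ) / 4)) * ∑ z ∈ W.image (fun v => qd v w) ×ˢ W.image (fun v => qd w v),
            ((z.1 : ℝ) ^ (-(1 / 4) : ℝ) * (z.2 : ℝ) ^ (-(1 / 4) : ℝ)) := by
          refine mul_le_mul_of_nonneg_left (sum_le_sum_of_subset_of_nonneg (fun z hz => ?_)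
            fun z _ _ => by positivity) (Real.exp_pos _).le
          obtain ⟨v, hv, rfl⟩ := mem_image.1 hz
          exact mem_product.2 ⟨mem_image_of_mem _ hv, mem_image_of_mem _ hv⟩
      _ ≤ Real.exp (-((j : ℝ) / 4)) * ((8 : ℝ) ^ excCut j * 8 ^ excCut j) := by
          refine mul_le_mul_of_nonneg_left ?_ (Real.exp_pos _).le
          rw [sum_product]
          dsimp only
          rw [← sum_mul_sum]
          refine mul_le_mul (sum_smooth_le _ _ fun n hn => ?_) (sum_smooth_le _ _ fun n hn => ?_)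
            (sum_nonneg fun z _ => by positivity) (by positivity)
          · obtain ⟨v, hv, rfl⟩ := mem_image.1 hn
            obtain ⟨hvS, hj⟩ := hWv v hv
            exact ⟨BilinearAux.qd_pos (h.pos v hvS), hj ▸ hJ1 v (mem_filter.1 hv).1⟩
          · obtain ⟨v, hv, rfl⟩ := mem_image.1 hn
            obtain ⟨-, hj⟩ := hWv v hv
            exact ⟨BilinearAux.qd_pos (h.pos w hw), hj ▸ hJ2 v (mem_filter.1 hv).1⟩
      _ ≤ _ := excCut_le j
  refine (sum_le_sum hfib).trans ?_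
  rw [← mul_sum, range_eq_Ico]
  refine mul_le_mul_of_nonneg_left ?_ (Real.exp_pos _).le
  refine (geom_sum_Ico_le_of_lt_one (Real.exp_pos _).le
    (Real.exp_lt_one_iff.2 (by norm_num))).trans_eq ?_
  rw [pow_zero, one_div]

/-- The overlaps on the line are of size the total mass. -/
theorem exists_sum_excTerm_le :
    ∃ C lam0 : ℝ, ∀ P : Sys, P.Ok0 lam0 →
      ∑ q ∈ P.S, ∑ r ∈ P.S, P.excTerm q r ≤ C * mass P.ψ P.S := by
  refine ⟨4 * (Real.exp 56 * (1 - Real.exp (-(1 / 8)))⁻¹), 0, fun P h => ?_⟩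
  set K := Real.exp 56 * (1 - Real.exp (-(1 / 8)))⁻¹
  set T : ℕ → ℕ → ℝ := fun v w =>
    if Below P v w then 2 * (wt P.ψ w * (P.ψ v / dist2 P.ψ v w)) else 0 with hT
  have hT0 : ∀ v w, 0 ≤ T v w := fun v w => by
    simp only [hT]
    split_ifs
    · have := BilinearAux.wt_nonneg h.nonneg w
      have := h.nonneg v
      have hD : 0 ≤ dist2 P.ψ v w :=
        le_trans (mul_nonneg (h.nonneg v) (Nat.cast_nonneg _)) (le_max_left _ _)
      positivity
    · exact le_rfl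
  have hpt : ∀ q, ∀ r ∈ P.S, P.excTerm q r ≤ T q r + T r q := fun q r hr => by
    rw [Sys.excTerm]
    split_ifs with he hpsi
    · refine le_add_of_le_of_nonneg (le_of_eq ?_) (hT0 r q)
      rw [hT]
      simp only [if_pos ((exc_below h hr he).1 hpsi)]
      ring
    · refine le_add_of_nonneg_of_le (hT0 q r) (le_of_eq ?_)
      rw [hT]
      simp only [if_pos ((exc_below h hr he).2 (le_of_not_ge hpsi))]
      rw [BilinearAux.dist2_comm P.ψ r q]
      ring
    · exact add_nonneg (hT0 _ _) (hT0 _ _)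
  calc ∑ q ∈ P.S, ∑ r ∈ P.S, P.excTerm q r
      ≤ ∑ q ∈ P.S, ∑ r ∈ P.S, (T q r + T r q) :=
        sum_le_sum fun q _ => sum_le_sum fun r hr => hpt q r hr
    _ = 2 * ∑ w ∈ P.S, ∑ v ∈ P.S, T v w := by
        simp only [sum_add_distrib]
        rw [sum_comm (f := fun q r => T q r)]
        ring
    _ ≤ 2 * ∑ w ∈ P.S, 2 * wt P.ψ w * K := by
        refine mul_le_mul_of_nonneg_left (sum_le_sum fun w hw => ?_) zero_le_two
        simp only [hT]
        rw [← sum_filter, ← mul_sum, ← mul_sum, mul_assoc]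
        exact mul_le_mul_of_nonneg_left (mul_le_mul_of_nonneg_left (sum_below_le h hw)
          (BilinearAux.wt_nonneg h.nonneg w)) zero_le_two
    _ = 4 * K * mass P.ψ P.S := by
        simp only [mass, mul_sum]
        exact sum_congr rfl fun w _ => by ring

end Vale.Agent.P028.W1
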