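import Vale.Agent.P028.W1.Defs
import Vale.Agent.P028.T2.GainSame

/-!
The gain inside one window at the levels `x ≤ Λ ^ (-levC)`, without a bound on the moduli: the
square of the logarithm of a downward deviation is absorbed by the level.
-/

noncomputable section

namespace Vale.Agent.P028.W1

open Finset T2
open T2.GainSame hiding qd_le log_down_le ebd_lt_of_tight exists_state_le Window
open scoped Classical

/-- The facts used about the moduli of one window. -/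
structure Win (ψ : ℕ → ℝ) (S : Finset ℕ) (Λ : ℝ) : Prop where
  nonneg : ∀ q, 0 ≤ ψ q
  pos : ∀ q ∈ S, 0 < q
  le_psi : ∀ q ∈ S, Real.exp (-(rhoC * Λ)) ≤ ψ q
  psi_le : ∀ q ∈ S, ψ q ≤ Real.exp (-Λ)
  lam_ge : (2 : ℝ) ^ (60 : ℕ) ≤ Λ

/-- The levels at which the logarithms are absorbed. -/
def levC : ℝ := 8000

/-- `x ^ σ L ^ 2` is a power of `x` at these levels. -/
theorem level_absorb {x Λ : ℝ} (hx : 0 < x) (hx1 : x ≤ 1) (hΛ : 1 ≤ Λ) (hz : x ≤ Λ ^ (-levC)) :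
    x ^ sigC * (2 * Λ) ^ 2 ≤ 4 * x ^ (sigC / 2) := by
  have h0 : (0 : ℝ) < Λ := by linarith
  have h1 : x ^ (sigC / 2) ≤ (Λ ^ (-levC)) ^ (sigC / 2) :=
    Real.rpow_le_rpow hx.le hz (by norm_num [sigC])
  rw [← Real.rpow_mul h0.le, show -levC * (sigC / 2) = -((2 : ℕ) : ℝ) by norm_num [levC, sigC],
    Real.rpow_neg h0.le, Real.rpow_natCast, ← one_div, le_div_iff₀ (by positivity)] at h1
  calc x ^ sigC * (2 * Λ) ^ 2 = 4 * (x ^ (sigC / 2) * Λ ^ 2) * x ^ (sigC / 2) := by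
        rw [show sigC = sigC / 2 + sigC / 2 by ring, Real.rpow_add hx]; ring
    _ ≤ 4 * 1 * x ^ (sigC / 2) := by gcongr
    _ = _ := by ring

variable {Λ x : ℝ} {ψ : ℕ → ℝ} {P S U V W : Finset ℕ} {i j k : ℕ → ℕ}

theorem qd_le (hwin : Win ψ S Λ) {v w : ℕ} (hw : w ∈ S) (hx : x ≤ 1 / 2)
    (hd : dist2 ψ v w ≤ 2 * x) : (qd v w : ℝ) ≤ Real.exp (2 * Λ) := by
  have hψ0 : Real.exp (-(rhoC * Λ)) ≤ ψ w := hwin.le_psi w hw
  have hΛ : (0 : ℝ) ≤ Λ := le_trans (by positivity) hwin.lam_ge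
  have h1 : ψ w * (qd v w : ℝ) ≤ 1 := ((le_max_right _ _).trans hd).trans (by linarith)
  have h2 : Real.exp (-(rhoC * Λ)) * (qd v w : ℝ) ≤ 1 :=
    (mul_le_mul_of_nonneg_right hψ0 (Nat.cast_nonneg _)).trans h1
  rw [Real.exp_neg, inv_mul_le_iff₀ (Real.exp_pos _), mul_one] at h2
  exact h2.trans (Real.exp_le_exp.2 (mul_le_mul_of_nonneg_right (by norm_num [rhoC]) hΛ))

theorem log_down_le (hwin : Win ψ S Λ) (h : FinState P S U V W i j) {v w : ℕ} (hv : v ∈ V)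
    (hw : w ∈ W) (hx : x ≤ 1 / 2) (hd : dist2 ψ v w ≤ 2 * x) (hk : NoCoDev U k v w) :
    Real.log (downDev U k w) ≤ 2 * Λ ∧ Real.log (downDev U k v) ≤ 2 * Λ := by
  obtain ⟨e1, e2⟩ := qd_eq_of_finState h hv hw hk
  have hd' : dist2 ψ w v ≤ 2 * x := by rwa [dist2, max_comm]
  have key : ∀ (Q a d : ℕ) (n : ℕ), n = Q * (a * d) → 0 < n → (n : ℝ) ≤ Real.exp (2 * Λ) →
      Real.log (d : ℝ) ≤ 2 * Λ := by
    intro Q a d n hn hn0 hle
    have hdn : d ≤ n := Nat.le_of_dvd hn0 (hn ▸ Dvd.dvd.mul_left (dvd_mul_left d a) Q)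
    have hd0 : 0 < d := Nat.pos_of_ne_zero (by rintro rfl; simp [hn] at hn0)
    rw [Real.log_le_iff_le_exp (by exact_mod_cast hd0)]
    exact le_trans (by exact_mod_cast hdn) hle
  exact ⟨key _ _ _ _ e1 (BilinearAux.qd_pos (h.pos_of_mem v (h.V_sub hv)))
      (qd_le hwin (h.W_sub hw) hx hd),
    key _ _ _ _ e2 (BilinearAux.qd_pos (h.pos_of_mem w (h.W_sub hw)))
      (qd_le hwin (h.V_sub hv) hx hd')⟩

/-- Tight pairs of one window have a product of quotients above `ebd`. -/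
theorem ebd_lt_of_tight {ψ : ℕ → ℝ} {S : Finset ℕ} {Λ x : ℝ} (hwin : Win ψ S Λ) {v w : ℕ}
    (hv : v ∈ S) (hw : w ∈ S) (hlo : Real.exp (-(49 / 100 * Λ)) ≤ x) (ht : Tight ψ x v w) :
    ebd Λ x < (qd v w : ℝ) * (qd w v : ℝ) := by
  have hx : 0 < x := lt_of_lt_of_le (Real.exp_pos _) hlo
  have hΛ0 : (0 : ℝ) < Λ := lt_of_lt_of_le (by positivity) hwin.lam_ge
  have key : ∀ u : ℕ, ∀ n : ℕ, ψ u ≤ Real.exp (-Λ) → x ^ (1 + slackC) ≤ ψ u * (n : ℝ) →
      x ^ (1 + slackC) * Real.exp Λ ≤ (n : ℝ) := by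
    intro u n hu hle
    have := hle.trans (mul_le_mul_of_nonneg_right hu (Nat.cast_nonneg _))
    rw [Real.exp_neg, le_inv_mul_iff₀ (Real.exp_pos _)] at this
    rwa [mul_comm] at this
  have h1 := key w (qd v w) (hwin.psi_le w hw) ht.1
  have h2 := key v (qd w v) (hwin.psi_le v hv) ht.2
  refine lt_of_lt_of_le ?_ (mul_le_mul h1 h2 (by positivity) (Nat.cast_nonneg _))
  rw [ebd]
  have h9 : 2 * Λ ^ (9 / 10 : ℝ) ≤ Λ / 32 := by
    have h64 : (64 : ℝ) ≤ Λ ^ (1 / 10 : ℝ) := by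
      calc (64 : ℝ) = ((2 : ℝ) ^ (60 : ℕ)) ^ (1 / 10 : ℝ) := by
            rw [← Real.rpow_natCast, ← Real.rpow_mul zero_le_two]; norm_num
        _ ≤ _ := Real.rpow_le_rpow (by positivity) hwin.lam_ge (by norm_num)
    have e : Λ ^ (9 / 10 : ℝ) * Λ ^ (1 / 10 : ℝ) = Λ := by
      rw [← Real.rpow_add hΛ0]; norm_num
    nlinarith [Real.rpow_nonneg hΛ0.le (9 / 10 : ℝ)]
  have hxpow : x ^ (-(2 + kapC + 4 * sigC)) ≤
      x ^ (1 + slackC) * x ^ (1 + slackC) * Real.exp (49 / 100 * (4016 / 1000) * Λ) := by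
    have h0 : Real.exp (-(49 / 100 * (4016 / 1000) * Λ)) ≤ x ^ (4016 / 1000 : ℝ) := by
      refine le_trans (le_of_eq ?_) (Real.rpow_le_rpow (Real.exp_pos _).le hlo (by norm_num))
      rw [← Real.exp_mul]; congr 1; ring
    rw [Real.exp_neg, inv_le_iff_one_le_mul₀ (Real.exp_pos _)] at h0
    rw [← Real.rpow_add hx]
    calc x ^ (-(2 + kapC + 4 * sigC))
        ≤ x ^ (-(2 + kapC + 4 * sigC)) *
            (x ^ (4016 / 1000 : ℝ) * Real.exp (49 / 100 * (4016 / 1000) * Λ)) :=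
          le_mul_of_one_le_right (by positivity) h0
      _ = _ := by
          rw [← mul_assoc, ← Real.rpow_add hx]
          norm_num [kapC, sigC, slackC]
  calc x ^ (-(2 + kapC + 4 * sigC)) * Real.exp (2 * Λ ^ (9 / 10 : ℝ))
      < x ^ (1 + slackC) * x ^ (1 + slackC) * Real.exp (49 / 100 * (4016 / 1000) * Λ) *
          Real.exp (2 * Λ - 49 / 100 * (4016 / 1000) * Λ) := by
        refine mul_lt_mul_of_le_of_lt_of_pos_of_nonneg hxpow (Real.exp_lt_exp.2 ?_)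
          (by positivity) (Real.exp_pos _).le
        nlinarith
    _ = x ^ (1 + slackC) * Real.exp Λ * (x ^ (1 + slackC) * Real.exp Λ) := by
        rw [mul_assoc _ (Real.exp _), ← Real.exp_add,
          show 49 / 100 * (4016 / 1000) * Λ + (2 * Λ - 49 / 100 * (4016 / 1000) * Λ) = Λ + Λ by ring,
          Real.exp_add]
        ring

/-- The bad pairs of a final state. -/
theorem exists_state_le :
    ∃ C x0 : ℝ, 0 ≤ C ∧ 0 < x0 ∧ ∀ (γ : ℝ) (ψ : ℕ → ℝ) (Λ x : ℝ) (P S U V W : Finset ℕ)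
      (i j k : ℕ → ℕ), Win ψ S Λ → FinState P S U V W i j →
      Real.exp (-(49 / 100 * Λ)) ≤ x → x ≤ x0 → x ≤ Λ ^ (-levC) →
      ∑ v ∈ V, ∑ w ∈ W, (if StatePair γ ψ Λ x U k v w then wt ψ v * wt ψ w else 0) ≤
        C * x ^ (1 + gainC) * (mass ψ S ^ (aOne - aTwo) * (mass ψ V * mass ψ W) ^ thetaT) /
          ((fixedPart (P \ U) i j : ℝ) * (fixedPart (P \ U) j i : ℝ)) ^ betaT := by
  obtain ⟨Cr, hr⟩ := exists_ratio_sums_T2
  obtain ⟨Cs, hs⟩ := exists_minor_up_s_le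
  obtain ⟨Cu, hu⟩ := exists_minor_up_t_le
  obtain ⟨Cd', hd⟩ := exists_minor_down_le
  set Cd := max 1 (4 * max Cd' 0) with hCdd
  have hCd : 1 ≤ Cd := le_max_left _ _
  obtain ⟨xM, hxM, hmaj⟩ := exists_pairMajor_le
  set Cr' := max Cr 1 with hCr'
  set G := cCen * (Cr' + max Cs 0 + max Cu 0) * Cd with hG
  have hCr1 : 1 ≤ Cr' := le_max_right _ _
  have hs0 : 0 ≤ max Cs 0 := le_max_right _ _
  have hu0 : 0 ≤ max Cu 0 := le_max_right _ _
  have hsum1 : 1 ≤ Cr' + max Cs 0 + max Cu 0 := by linarith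
  have hG1 : 1 ≤ G := one_le_mul_of_one_le_of_one_le
    (one_le_mul_of_one_le_of_one_le one_le_cCen hsum1) hCd
  have hcc : 0 ≤ cCen := zero_le_one.trans one_le_cCen
  have hGc : cCen * Cr' ≤ G :=
    (mul_le_mul_of_nonneg_left (by linarith) hcc).trans
      (le_mul_of_one_le_right (mul_nonneg hcc (by linarith)) hCd)
  have hGs : cCen * max Cs 0 ≤ G :=
    (mul_le_mul_of_nonneg_left (by linarith) hcc).trans
      (le_mul_of_one_le_right (mul_nonneg hcc (by linarith)) hCd)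
  have hGu : cCen * max Cu 0 ≤ G :=
    (mul_le_mul_of_nonneg_left (by linarith) hcc).trans
      (le_mul_of_one_le_right (mul_nonneg hcc (by linarith)) hCd)
  have hGd : Cr' * Cd ≤ G :=
    mul_le_mul_of_nonneg_right (le_trans (by linarith)
      (le_mul_of_one_le_left (by linarith) one_le_cCen)) (by linarith)
  refine ⟨6 * (2 * G), min xM ((2 : ℝ) ^ (-(20 : ℝ))), by linarith,
    lt_min hxM (Real.rpow_pos_of_pos two_pos _), ?_⟩
  intro γ ψ Λ x P S U V W i j k hwin h hlo hhi hlev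
  have hx : 0 < x := lt_of_lt_of_le (Real.exp_pos _) hlo
  have hx20 : x ≤ (2 : ℝ) ^ (-(20 : ℝ)) := hhi.trans (min_le_right _ _)
  have hx2 : x ≤ 1 / 2 := hx20.trans (le_trans
    (Real.rpow_le_rpow_of_exponent_le one_le_two (show (-(20 : ℝ)) ≤ -1 by norm_num))
    (by norm_num [Real.rpow_neg_one]))
  have hx1 : x ≤ 1 := by linarith
  have hψ := hwin.nonneg
  have hΛ := hwin.lam_ge
  have hΛ0 : (0 : ℝ) ≤ Λ := le_trans (by positivity) hΛ
  have hU := h.prime_U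
  set N := centre U k with hN
  have hN0 : 0 < N := centre_pos' h
  set Q := fixedPart (P \ U) i j with hQ
  set R := fixedPart (P \ U) j i with hR
  have hQ0 : 0 < Q := fixedPart_pos h.prime_sdiff i j
  have hR0 : 0 < R := fixedPart_pos h.prime_sdiff j i
  have hQ1 : (1 : ℝ) ≤ (Q : ℝ) := by exact_mod_cast hQ0
  have hR1 : (1 : ℝ) ≤ (R : ℝ) := by exact_mod_cast hR0
  set SP := StatePair γ ψ Λ x U k with hSP
  have hupS : ∀ (v : ℕ) (T : Finset ℕ), (∀ c ∈ T, 1 ≤ c ∧ c ≤ upDev U k v) →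
      ∑ c ∈ T, ((upDev U k v : ℝ) / c) ^ sT / upDev U k v ≤ Cr' :=
    fun v T hT => (((hr _ (upDev_pos hU k v) T).1) hT).trans (le_max_left _ _)
  have hupT : ∀ (w : ℕ) (T : Finset ℕ), (∀ a ∈ T, upDev U k w ≤ a) →
      ∑ a ∈ T, ((upDev U k w : ℝ) / a) ^ tT / upDev U k w ≤ Cr' :=
    fun w T hT => (((hr _ (upDev_pos hU k w) T).2) hT).trans (le_max_left _ _)
  have hf1 : ∀ v c : ℕ, 0 ≤ ((upDev U k v : ℝ) / c) ^ sT / upDev U k v :=
    fun v c => by positivity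
  have hf2 : ∀ w a : ℕ, 0 ≤ ((upDev U k w : ℝ) / a) ^ tT / upDev U k w :=
    fun w a => by positivity
  have hc1 : ∀ R' : ℕ → ℕ → Prop, (∀ v w, R' v w → SP v w) → ∀ v ∈ V,
      ∑ w ∈ W.filter (fun w => R' v w), uW N (downDev U k w) *
        (((upDev U k v : ℝ) / upDev U k w) ^ sT / upDev U k v) ≤ G := by
    intro R' hR' v hv
    refine (side_down_first h _ _ N.divisors (Finset.filter_subset _ _) (fun w hw => ?_) Cr'
      (fun d _ => hupS v _ fun c hc => ?_)).trans ((mul_le_mul_of_nonneg_right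
        (uSum_le hN0 subset_rfl) (by linarith)).trans hGc)
    · obtain ⟨hwW, hr'⟩ := Finset.mem_filter.1 hw
      exact (down_mem h hv hwW (hR' v w hr').2.1).2
    · simp only [Finset.mem_image, Finset.mem_filter] at hc
      obtain ⟨w, ⟨⟨-, hr'⟩, -⟩, rfl⟩ := hc
      exact ⟨upDev_pos hU k w, (hR' v w hr').2.2⟩
  have hc2 : ∀ R' : ℕ → ℕ → Prop, (∀ v w, R' v w → SP v w) → ∀ w ∈ W,
      ∑ v ∈ V.filter (fun v => R' v w), uW N (downDev U k v) *
        (((upDev U k w : ℝ) / upDev U k v) ^ tT / upDev U k w) ≤ G := by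
    intro R' hR' w hw
    refine (side_down_first h.symm _ _ N.divisors (Finset.filter_subset _ _) (fun v hv => ?_) Cr'
      (fun d _ => hupT w _ fun a ha => ?_)).trans ((mul_le_mul_of_nonneg_right
        (uSum_le hN0 subset_rfl) (by linarith)).trans hGc)
    · obtain ⟨hvV, hr'⟩ := Finset.mem_filter.1 hv
      exact (down_mem h hvV hw (hR' v w hr').2.1).1
    · simp only [Finset.mem_image, Finset.mem_filter] at ha
      obtain ⟨v, ⟨⟨-, hr'⟩, -⟩, rfl⟩ := ha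
      exact (hR' v w hr').2.2
  have hxq : ∀ v w, SP v w → ψ w * (qd v w : ℝ) ≤ 2 * x ∧ ψ v * (qd w v : ℝ) ≤ 2 * x :=
    fun v w hsp => ⟨(le_max_right _ _).trans hsp.1.2.1, (le_max_left _ _).trans hsp.1.2.1⟩
  have hfrac : ∀ v ∈ V, ∀ w ∈ W, SP v w → ∃ n : ℤ,
      |(n : ℝ) + γ * (((R * (upDev U k w * downDev U k v) : ℕ) : ℝ) -
        ((Q * (upDev U k v * downDev U k w) : ℕ) : ℝ))| ≤ 4 * x := by
    intro v hv w hw hsp
    obtain ⟨n, hn⟩ := hsp.1.2.2.1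
    obtain ⟨e1, e2⟩ := qd_eq_of_finState h hv hw hsp.2.1
    refine ⟨n, ?_⟩
    have e : ((mdiff v w : ℤ) : ℝ) = (qd w v : ℝ) - (qd v w : ℝ) := by
      simp only [mdiff]; push_cast; ring
    rw [e, e1, e2] at hn
    exact hn
  set B := 2 * G * x ^ (1 + gainC) with hB
  have hB0 : 0 ≤ B := mul_nonneg (by linarith) (Real.rpow_nonneg hx.le _)
  set Mm : ℝ := mass ψ S ^ (aOne - aTwo) * (mass ψ V * mass ψ W) ^ thetaT with hMm
  set Den : ℝ := ((Q : ℝ) * (R : ℝ)) ^ betaT with hDen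
  have hMm0 : 0 ≤ Mm := mul_nonneg (Real.rpow_nonneg (BilinearAux.mass_nonneg hψ _) _)
    (Real.rpow_nonneg (mul_nonneg (BilinearAux.mass_nonneg hψ _)
      (BilinearAux.mass_nonneg hψ _)) _)
  have hterm0 : 0 ≤ B * Mm / Den := div_nonneg (mul_nonneg hB0 hMm0)
    (Real.rpow_nonneg (by positivity) _)
  have hgoal : 6 * (2 * G) * x ^ (1 + gainC) * Mm / Den = 6 * (B * Mm / Den) := by
    rw [hB]; ring
  rw [hgoal]
  by_cases hbig : x ^ (-(2 + kapC)) < (Q : ℝ) * R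
  · refine (class_bound h hψ (by positivity : (0 : ℝ) < 2 * x) (by positivity : (0 : ℝ) < 2 * x)
      SP (fun v _ w _ hsp => ⟨hsp.2.1, (hxq v w hsp).1, (hxq v w hsp).2, hsp.2.2⟩) G G B
      (by linarith) (by linarith) (hc1 SP fun _ _ h => h) (hc2 SP fun _ _ h => h) ?_).trans ?_
    · exact num_of_spare hx hx1 hQ1 hR1 hG1 hbig
    · show B * Mm / Den ≤ 6 * (B * Mm / Den)
      linarith
  -- the classes
  have hcls : ∀ (R' : ℕ → ℕ → Prop) (s1 s2 ε1 ε2 : ℝ),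
      (∀ v w, R' v w → SP v w) →
      (∀ v w, R' v w → ψ w * (qd v w : ℝ) ≤ 2 * x ^ s1 ∧ ψ v * (qd w v : ℝ) ≤ 2 * x ^ s2) →
      (∀ v ∈ V, ∑ w ∈ W.filter (fun w => R' v w), uW N (downDev U k w) *
        (((upDev U k v : ℝ) / upDev U k w) ^ sT / upDev U k v) ≤ G * x ^ ε1) →
      (∀ w ∈ W, ∑ v ∈ V.filter (fun v => R' v w), uW N (downDev U k v) *
        (((upDev U k w : ℝ) / upDev U k v) ^ tT / upDev U k w) ≤ G * x ^ ε2) →
      1 + gainC ≤ s1 * aOne + s2 * aTwo + (ε1 * aOne + ε2 * aTwo) →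
      ∑ v ∈ V, ∑ w ∈ W, (if R' v w then wt ψ v * wt ψ w else 0) ≤ B * Mm / Den := by
    intro R' s1 s2 ε1 ε2 hsub hcap h1 h2 hexp
    have hG0 : (0 : ℝ) ≤ G := by linarith
    exact class_bound h hψ (by positivity) (by positivity) R'
      (fun v _ w _ hr => ⟨(hsub v w hr).2.1, (hcap v w hr).1, (hcap v w hr).2, (hsub v w hr).2.2⟩)
      _ _ B (mul_nonneg hG0 (Real.rpow_nonneg hx.le _)) (mul_nonneg hG0 (Real.rpow_nonneg hx.le _))
      h1 h2 (num_of_gain hQ1 hR1 hB0 (gain_num hx hx1 hG1 hexp))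
  have hone : G * x ^ (0 : ℝ) = G := by rw [Real.rpow_zero, mul_one]
  set s0 : ℝ := 1 with hs0d
  have hcap0 : ∀ v w, SP v w →
      ψ w * (qd v w : ℝ) ≤ 2 * x ^ s0 ∧ ψ v * (qd w v : ℝ) ≤ 2 * x ^ s0 := by
    intro v w hsp; rw [hs0d, Real.rpow_one]; exact hxq v w hsp
  set A1 : ℕ → ℕ → Prop := fun v w => id (SP v w ∧ ψ w * (qd v w : ℝ) < x ^ (1 + slackC)) with hA1
  set A2 : ℕ → ℕ → Prop := fun v w => id (SP v w ∧ ψ v * (qd w v : ℝ) < x ^ (1 + slackC)) with hA2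
  set Ac : ℕ → ℕ → Prop := fun v w => id (SP v w ∧ x ^ (-sigC) ≤ (upDev U k w : ℝ) ∧
    ¬ Maj2 x (γ * (R * downDev U k v : ℕ)) (upDev U k w)) with hAc
  set Aa : ℕ → ℕ → Prop := fun v w => id (SP v w ∧ x ^ (-sigC) ≤ (upDev U k v : ℝ) ∧
    ¬ Maj2 x (γ * (Q * downDev U k w : ℕ)) (upDev U k v)) with hAa
  set Ad : ℕ → ℕ → Prop := fun v w => id (SP v w ∧ x ^ (-sigC) ≤ (downDev U k w : ℝ) ∧
    ¬ Maj2 x (γ * (Q * upDev U k v : ℕ)) (downDev U k w)) with hAd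
  set Ab : ℕ → ℕ → Prop := fun v w => id (SP v w ∧ x ^ (-sigC) ≤ (downDev U k v : ℝ) ∧
    ¬ Maj2 x (γ * (R * upDev U k w : ℕ)) (downDev U k v)) with hAb
  have hcover : ∀ v ∈ V, ∀ w ∈ W, SP v w →
      A1 v w ∨ A2 v w ∨ Ac v w ∨ Aa v w ∨ Ad v w ∨ Ab v w := by
    intro v hv w hw hsp
    by_contra hno
    simp only [hA1, hA2, hAc, hAa, hAd, hAb, id_eq, not_or, not_and, not_not, not_lt] at hno
    obtain ⟨h1, h2, h3, h4, h5, h6⟩ := hno
    have ht : Tight ψ x v w := ⟨h1 hsp, h2 hsp⟩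
    obtain ⟨e1, e2⟩ := qd_eq_of_finState h hv hw hsp.2.1
    obtain ⟨n, hn⟩ := hfrac v hv w hw hsp
    have hbd := ebd_lt_of_tight hwin (h.V_sub hv) (h.W_sub hw) hlo ht
    rw [e1, e2] at hbd
    have hpm := hmaj γ Λ x (x ^ (-sigC)) Q (upDev U k v) (downDev U k w) R (downDev U k v)
      (upDev U k w) n hΛ0 hx (hhi.trans (min_le_left _ _)) le_rfl (le_max_left _ _) hQ0
      (upDev_pos hU k v) (downDev_pos hU k w) hR0 (downDev_pos hU k v) (upDev_pos hU k w)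
      (coprime_up_down hU hsp.2.1)
      (coprime_up_down hU fun p hp => (hsp.2.1 p hp).symm) (not_lt.1 hbig) hbd hn
      (h4 hsp) (h3 hsp) (h5 hsp) (h6 hsp)
    rw [← e1, ← e2] at hpm
    exact hsp.1.2.2.2 ⟨ht, hpm⟩
  -- the six bounds
  have hxhalf : x ^ sigC ≤ x ^ (sigC / 2) :=
    Real.rpow_le_rpow_of_exponent_ge hx hx1 (by norm_num [sigC])
  have hdownZ : ∀ (α β : ℝ) (T : Finset ℕ), T ⊆ N.divisors →
      (∀ d ∈ T, x ^ (-sigC) ≤ (d : ℝ) ∧ Real.log d ≤ 2 * Λ ∧ ¬ Maj2 x α d ∧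
        ∃ n : ℤ, |(n : ℝ) + α * d - β| ≤ 4 * x) →
      ∑ d ∈ T, uW N d ≤ Cd * x ^ (sigC / 2) := by
    intro α β T hT hTd
    have hΛ1 : (1 : ℝ) ≤ Λ := (one_le_pow₀ one_le_two).trans hΛ
    refine (hd x α β (2 * Λ) N T hx hx20 hN0 (by linarith) hT hTd).trans ?_
    calc Cd' * x ^ sigC * (2 * Λ) ^ 2 ≤ max Cd' 0 * (x ^ sigC * (2 * Λ) ^ 2) := by
          rw [mul_assoc]
          exact mul_le_mul_of_nonneg_right (le_max_left _ _) (by positivity)
      _ ≤ max Cd' 0 * (4 * x ^ (sigC / 2)) :=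
          mul_le_mul_of_nonneg_left (level_absorb hx hx1 hΛ1 hlev) (le_max_right _ _)
      _ ≤ Cd * x ^ (sigC / 2) := by
          rw [← mul_assoc, mul_comm _ (4 : ℝ)]
          exact mul_le_mul_of_nonneg_right (le_max_right _ _) (Real.rpow_nonneg hx.le _)
  have hGd' : ∀ M, M ≤ Cd * x ^ (sigC / 2) → 0 ≤ M → Cr' * M ≤ G * x ^ (sigC / 2) :=
    fun M hM _ => (mul_le_mul_of_nonneg_left hM (by linarith)).trans (by
      rw [← mul_assoc]; exact mul_le_mul_of_nonneg_right hGd (Real.rpow_nonneg hx.le _))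
  have hMd0 : 0 ≤ Cd * x ^ (sigC / 2) := mul_nonneg (by linarith) (Real.rpow_nonneg hx.le _)
  refine six_le V W _ (fun v w => mul_nonneg (BilinearAux.wt_nonneg hψ v)
    (BilinearAux.wt_nonneg hψ w)) SP A1 A2 Ac Aa Ad Ab _ hcover ?_ ?_ ?_ ?_ ?_ ?_
  · refine hcls A1 (1 + slackC) s0 0 0 (fun _ _ h => h.1) (fun v w hr => ⟨?_, (hcap0 v w hr.1).2⟩)
      (fun v hv => (hc1 A1 (fun _ _ h => h.1) v hv).trans_eq hone.symm)
      (fun w hw => (hc2 A1 (fun _ _ h => h.1) w hw).trans_eq hone.symm)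
      (by norm_num [hs0d, slackC, gainC, aOne, aTwo])
    have := hr.2.le
    have : 0 ≤ x ^ (1 + slackC) := Real.rpow_nonneg hx.le _
    linarith
  · refine hcls A2 s0 (1 + slackC) 0 0 (fun _ _ h => h.1) (fun v w hr => ⟨(hcap0 v w hr.1).1, ?_⟩)
      (fun v hv => (hc1 A2 (fun _ _ h => h.1) v hv).trans_eq hone.symm)
      (fun w hw => (hc2 A2 (fun _ _ h => h.1) w hw).trans_eq hone.symm)
      (by norm_num [hs0d, slackC, gainC, aOne, aTwo])
    have := hr.2.le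
    have : 0 ≤ x ^ (1 + slackC) := Real.rpow_nonneg hx.le _
    linarith
  · refine hcls Ac s0 s0 (sigC / 2) 0 (fun _ _ h => h.1) (fun v w hr => hcap0 v w hr.1) ?_
      (fun w hw => (hc2 Ac (fun _ _ h => h.1) w hw).trans_eq hone.symm)
      (by norm_num [hs0d, sigC, gainC, aOne, aTwo])
    intro v hv
    refine le_trans (side_down_first (k := k) h (W.filter fun w => Ac v w)
      (fun c => ((upDev U k v : ℝ) / c) ^ sT / upDev U k v)
      N.divisors (Finset.filter_subset _ _) (fun w hw => ?_)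
      (max Cs 0 * x ^ (sigC / 2)) (fun d _ => ?_)) ?_
    · obtain ⟨hwW, hr'⟩ := Finset.mem_filter.1 hw
      exact (down_mem h hv hwW hr'.1.2.1).2
    · refine (hs x (γ * (R * downDev U k v : ℕ)) (γ * (Q * (upDev U k v * d) : ℕ))
        (upDev U k v) _ hx hx20 (upDev_pos hU k v) fun c hc => ?_).trans
        (mul_le_mul (le_max_left _ _) hxhalf (by positivity) hs0)
      simp only [Finset.mem_image, Finset.mem_filter] at hc
      obtain ⟨w, ⟨⟨hwW, hr'⟩, rfl⟩, rfl⟩ := hc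
      obtain ⟨n, hn⟩ := hfrac v hv w hwW hr'.1
      refine ⟨hr'.1.2.2, hr'.2.1, hr'.2.2, n, le_of_eq_of_le ?_ hn⟩
      congr 1
      push_cast
      ring
    · refine (mul_le_mul_of_nonneg_right (uSum_le hN0 subset_rfl) (by positivity)).trans ?_
      rw [← mul_assoc]
      exact mul_le_mul_of_nonneg_right hGs (by positivity)
  · refine hcls Aa s0 s0 0 (sigC / 2) (fun _ _ h => h.1) (fun v w hr => hcap0 v w hr.1)
      (fun v hv => (hc1 Aa (fun _ _ h => h.1) v hv).trans_eq hone.symm) ?_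
      (by norm_num [hs0d, sigC, gainC, aOne, aTwo])
    intro w hw
    refine le_trans (side_down_first (k := k) h.symm (V.filter fun v => Aa v w)
      (fun a => ((upDev U k w : ℝ) / a) ^ tT / upDev U k w)
      N.divisors (Finset.filter_subset _ _) (fun v hv => ?_)
      (max Cu 0 * x ^ (sigC / 2)) (fun b _ => ?_)) ?_
    · obtain ⟨hvV, hr'⟩ := Finset.mem_filter.1 hv
      exact (down_mem h hvV hw hr'.1.2.1).1
    · refine (hu x (γ * (Q * downDev U k w : ℕ)) (γ * (R * (upDev U k w * b) : ℕ))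
        (upDev U k w) _ hx hx20 (upDev_pos hU k w) fun a ha => ?_).trans
        (mul_le_mul (le_max_left _ _) hxhalf (by positivity) hu0)
      simp only [Finset.mem_image, Finset.mem_filter] at ha
      obtain ⟨v, ⟨⟨hvV, hr'⟩, rfl⟩, rfl⟩ := ha
      obtain ⟨n, hn⟩ := hfrac v hvV w hw hr'.1
      refine ⟨hr'.1.2.2, hr'.2.1, hr'.2.2, -n, le_of_eq_of_le ?_ hn⟩
      rw [← abs_neg]
      congr 1
      push_cast
      ring
    · refine (mul_le_mul_of_nonneg_right (uSum_le hN0 subset_rfl) (by positivity)).trans ?_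
      rw [← mul_assoc]
      exact mul_le_mul_of_nonneg_right hGu (by positivity)
  · refine hcls Ad s0 s0 (sigC / 2) 0 (fun _ _ h => h.1) (fun v w hr => hcap0 v w hr.1) ?_
      (fun w hw => (hc2 Ad (fun _ _ h => h.1) w hw).trans_eq hone.symm)
      (by norm_num [hs0d, sigC, gainC, aOne, aTwo])
    intro v hv
    rcases (W.filter (fun w => Ad v w)).eq_empty_or_nonempty with he | ⟨w0, hw0⟩
    · rw [he, Finset.sum_empty]; exact mul_nonneg (by linarith) (Real.rpow_nonneg hx.le _)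
    obtain ⟨hw0W, hr0⟩ := Finset.mem_filter.1 hw0
    refine le_trans (side_up_first h _ _ (hf1 v) (Finset.filter_subset _ _) (Cd * x ^ (sigC / 2))
      fun c hc => hdownZ (γ * (Q * upDev U k v : ℕ)) (γ * (R * (c * downDev U k v) : ℕ)) _
        (fun d hd' => ?_) fun d hd' => ?_) ?_
    · simp only [Finset.mem_image, Finset.mem_filter] at hd'
      obtain ⟨w, ⟨⟨hwW, hr'⟩, -⟩, rfl⟩ := hd'
      exact (down_mem h hv hwW hr'.1.2.1).2
    · simp only [Finset.mem_image, Finset.mem_filter] at hd'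
      obtain ⟨w, ⟨⟨hwW, hr'⟩, rfl⟩, rfl⟩ := hd'
      obtain ⟨n, hn⟩ := hfrac v hv w hwW hr'.1
      refine ⟨hr'.2.1,
        (log_down_le hwin h hv hwW hx2 hr'.1.1.2.1 hr'.1.2.1).1, hr'.2.2,
        -n, le_of_eq_of_le ?_ hn⟩
      rw [← abs_neg]
      congr 1
      push_cast
      ring
    · refine (mul_le_mul_of_nonneg_right (hupS v _ fun c hc => ?_) hMd0).trans
        (hGd' _ le_rfl hMd0)
      simp only [Finset.mem_image, Finset.mem_filter] at hc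
      obtain ⟨w, ⟨-, hr'⟩, rfl⟩ := hc
      exact ⟨upDev_pos hU k w, hr'.1.2.2⟩
  · refine hcls Ab s0 s0 0 (sigC / 2) (fun _ _ h => h.1) (fun v w hr => hcap0 v w hr.1)
      (fun v hv => (hc1 Ab (fun _ _ h => h.1) v hv).trans_eq hone.symm) ?_
      (by norm_num [hs0d, sigC, gainC, aOne, aTwo])
    intro w hw
    rcases (V.filter (fun v => Ab v w)).eq_empty_or_nonempty with he | ⟨v0, hv0⟩
    · rw [he, Finset.sum_empty]; exact mul_nonneg (by linarith) (Real.rpow_nonneg hx.le _)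
    obtain ⟨hv0V, hr0⟩ := Finset.mem_filter.1 hv0
    refine le_trans (side_up_first h.symm _ _ (hf2 w) (Finset.filter_subset _ _) (Cd * x ^ (sigC / 2))
      fun a ha => hdownZ (γ * (R * upDev U k w : ℕ)) (γ * (Q * (a * downDev U k w) : ℕ)) _
        (fun b hb => ?_) fun b hb => ?_) ?_
    · simp only [Finset.mem_image, Finset.mem_filter] at hb
      obtain ⟨v, ⟨⟨hvV, hr'⟩, -⟩, rfl⟩ := hb
      exact (down_mem h hvV hw hr'.1.2.1).1
    · simp only [Finset.mem_image, Finset.mem_filter] at hb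
      obtain ⟨v, ⟨⟨hvV, hr'⟩, rfl⟩, rfl⟩ := hb
      obtain ⟨n, hn⟩ := hfrac v hvV w hw hr'.1
      refine ⟨hr'.2.1,
        (log_down_le hwin h hvV hw hx2 hr'.1.1.2.1 hr'.1.2.1).2, hr'.2.2,
        n, le_of_eq_of_le ?_ hn⟩
      congr 1
      push_cast
      ring
    · refine (mul_le_mul_of_nonneg_right (hupT w _ fun a ha => ?_) hMd0).trans
        (hGd' _ le_rfl hMd0)
      simp only [Finset.mem_image, Finset.mem_filter] at ha
      obtain ⟨v, ⟨-, hr'⟩, rfl⟩ := ha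
      exact hr'.1.2.2

/-- The bad pairs of one window gain a power of `x`, for `exp (-0.49 Λ) ≤ x ≤ x0`. -/
theorem exists_gainSame_le :
    ∃ C lam0 x0 : ℝ, 0 < x0 ∧ ∀ P : Sys, P.Ok0 lam0 → ∀ S : Finset ℕ, S ⊆ P.S →
      ∀ Λ : ℝ, (∀ q ∈ S, P.lam q = Λ) → ∀ x : ℝ,
      Real.exp (-(49 / 100 * Λ)) ≤ x → x ≤ x0 → x ≤ Λ ^ (-levC) →
      ∑ v ∈ S, ∑ w ∈ S.filter (fun w => BadPair P.γ P.ψ Λ x v w), wt P.ψ v * wt P.ψ w ≤
        C * (mass P.ψ S + mass P.ψ S ^ 2) * x ^ (1 + gainC) := by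
  obtain ⟨Csp, hsplit⟩ := exists_symm_split_le
  obtain ⟨Cst, x0, hCst, hx0, hstate⟩ := exists_state_le
  refine ⟨Csp * Cst, (2 : ℝ) ^ (60 : ℕ), x0, hx0, fun P hok S hS Λ hlam x hlo hhi hlev => ?_⟩
  have hx : 0 < x := lt_of_lt_of_le (Real.exp_pos _) hlo
  rcases S.eq_empty_or_nonempty with rfl | ⟨q0, hq0⟩
  · simp [mass]
  have hwin : Win P.ψ S Λ :=
    { nonneg := hok.nonneg
      pos := fun q hq => hok.pos q (hS hq)
      le_psi := fun q hq => hlam q hq ▸ hok.le_psi q (hS hq)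
      psi_le := fun q hq => hlam q hq ▸ hok.psi_le q (hS hq)
      lam_ge := hlam q0 hq0 ▸ hok.lam_ge q0 (hS hq0) }
  refine (hsplit P.ψ S (BadPair P.γ P.ψ Λ x) (Cst * x ^ (1 + gainC)) hwin.pos hok.nonneg
    (fun v w h => h.symm) (mul_nonneg hCst (Real.rpow_nonneg hx.le _)) ?_).trans (le_of_eq (by ring))
  intro P' U V W i j k K h hK0 hK1 hsupp
  refine le_trans ?_ (hstate P.γ P.ψ Λ x P' S U V W i j k hwin h hlo hhi hlev)
  refine Finset.sum_le_sum fun v _ => Finset.sum_le_sum fun w _ => ?_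
  have hw0 : 0 ≤ wt P.ψ v * wt P.ψ w :=
    mul_nonneg (BilinearAux.wt_nonneg hok.nonneg v) (BilinearAux.wt_nonneg hok.nonneg w)
  by_cases hK : K v w = 0
  · rw [hK, zero_mul]; split_ifs <;> simp [hw0]
  · rw [if_pos (show StatePair P.γ P.ψ Λ x U k v w from hsupp v w hK)]
    exact mul_le_of_le_one_left hw0 (hK1 v w)

end Vale.Agent.P028.W1
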