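import Vale.Agent.P028.W1.Defs

/-!
The kill on two major arcs.
-/

noncomputable section

namespace Vale.Agent.P028.W1

open Finset T2
open scoped Classical

variable {P : Sys}

theorem exists_kill :
    ∃ lam0 x0 : ℝ, 0 < x0 ∧ ∀ P : Sys, P.Ok0 lam0 → ∀ q ∈ P.S, ∀ r ∈ P.S, P.lam q ≤ P.lam r →
      ∀ x : ℝ, Real.exp (-(49 / 100 * P.lam q)) ≤ x → x ≤ x0 → dist2 P.ψ q r ≤ 2 * x →
      Tight P.ψ x q r → PairMajor P.γ (P.lam q) x (qd q r) (qd r q) →
      ∀ n : ℤ, |(n : ℝ) + P.γ * mdiff q r| ≤ 4 * x →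
      P.A q = P.A r ∧ P.B q = P.B r ∧ zform (P.A q) (P.B q) q r n = 0 := by
  refine ⟨10 ^ 30, Real.exp (-200), Real.exp_pos _, ?_⟩
  intro P hP q hqS r hrS hle x hxlo hx0 _ hT hM n hn
  obtain ⟨t, rfl⟩ : ∃ t, x = Real.exp (-t) :=
    ⟨-Real.log x, by rw [neg_neg, Real.exp_log ((Real.exp_pos _).trans_le hxlo)]⟩
  rw [Real.exp_le_exp] at hxlo hx0
  have hΛ := hP.lam_ge q hqS
  have hq0 : 0 < qd q r := cl_qd_pos (hP.pos q hqS)
  have hr0 : 0 < qd r q := cl_qd_pos (hP.pos r hrS)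
  have hq1 : 1 / (qd q r : ℝ) ≤ Real.exp ((1 + slackC) * t - P.lam r) :=
    kill_inv_le hT.1 (hP.psi_le r hrS) (Nat.cast_pos.2 hq0)
  have hr1 : 1 / (qd r q : ℝ) ≤ Real.exp ((1 + slackC) * t - P.lam q) :=
    kill_inv_le hT.2 (hP.psi_le q hqS) (Nat.cast_pos.2 hr0)
  obtain ⟨H, e, L, H', e', L', hs, hs', hee⟩ := hM
  have he : 0 < e := Nat.pos_of_dvd_of_pos hs.2.2.1 hq0
  have he' : 0 < e' := Nat.pos_of_dvd_of_pos hs'.2.2.1 hr0
  have hco : Nat.Coprime e e' :=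
    ((cl_coprime_qd (hP.pos q hqS)).coprime_dvd_left hs.2.2.1).coprime_dvd_right hs'.2.2.1
  obtain ⟨K, hK1, hK2⟩ := exists_kill_common hco he (kill_frac (Λ := P.lam q) (by linarith) hΛ
    hs hs' hee hq0 hr0 (hq1.trans (Real.exp_le_exp.2 (by linarith))) hr1)
  obtain ⟨hH1, hH, -, -⟩ := hs.exp_bounds
  obtain ⟨hH1', hH', -, -⟩ := hs'.exp_bounds
  set G := H * H' with hGdef
  have hG0 : 0 < G := Nat.mul_pos hH1 hH1'
  have hG : (G : ℝ) ≤ 16 * Real.exp (4 * sigC * t) := by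
    rw [hGdef, show 4 * sigC * t = 2 * sigC * t + 2 * sigC * t by ring, Real.exp_add]
    push_cast
    calc (H : ℝ) * H' ≤ 4 * Real.exp (2 * sigC * t) * (4 * Real.exp (2 * sigC * t)) :=
          mul_le_mul hH hH' (Nat.cast_nonneg _) (by positivity)
      _ = _ := by ring
  have hsq := kill_side hs hH' he hK1
  have hsr : |(G : ℝ) * P.γ - K| * qd r q ≤ 8 * Real.exp (-((1 - 5 * sigC) * t)) := by
    rw [hGdef, Nat.mul_comm]
    exact kill_side hs' hH he' hK2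
  have hdev : |(G : ℝ) * P.γ - K| ≤ 8 * Real.exp ((5 * sigC + slackC) * t - P.lam r) := by
    have hq' : (0 : ℝ) < qd q r := Nat.cast_pos.2 hq0
    calc |(G : ℝ) * P.γ - K| = |(G : ℝ) * P.γ - K| * qd q r * (1 / qd q r) := by
          field_simp
      _ ≤ 8 * Real.exp (-((1 - 5 * sigC) * t)) * Real.exp ((1 + slackC) * t - P.lam r) :=
          mul_le_mul hsq hq1 (by positivity) (by positivity)
      _ = _ := by rw [mul_assoc, ← Real.exp_add]; congr 2; ring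
  have hwr := kill_window (by linarith) (hP.lam_ge r hrS) hG hdev (hP.short r hrS)
  have hwq := kill_window (by linarith) hΛ hG
    (hdev.trans (mul_le_mul_of_nonneg_left (Real.exp_le_exp.2 (by linarith)) (by norm_num)))
    (hP.short q hqS)
  obtain ⟨hA, hB⟩ := kill_eq (hP.short q hqS).B_pos (hP.short r hrS).B_pos hG0
    (hP.short q hqS).coprime (hP.short r hrS).coprime hwq hwr
  have hline := kill_line (γ := P.γ) (by linarith) hG hsq hsr (n := n)
    (by simpa only [mdiff] using hn)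
  refine ⟨hA, hB, mul_right_cancel₀ (b := (G : ℤ)) (by exact_mod_cast hG0.ne') ?_⟩
  rw [zero_mul, zform, mdiff]
  calc (n * (P.B q : ℤ) + P.A q * ((qd r q : ℤ) - qd q r)) * G
      = (P.B q : ℤ) * (n * G + K * ((qd r q : ℤ) - qd q r)) := by
        linear_combination ((qd q r : ℤ) - qd r q) * hwq
    _ = 0 := by rw [hline, mul_zero]

end Vale.Agent.P028.W1
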