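import Vale.Agent.P028.W1.Defs

/-!
The overlap bounds for systems without a hypothesis on the size of the moduli.
-/

noncomputable section

namespace Vale.Agent.P028.W1

open Finset MeasureTheory T2
open scoped Classical

variable {P : Sys}

/-- The cut is at most `√Λ + 1`. -/
theorem exists_y_le :
    ∃ lam0 : ℝ, ∀ P : Sys, P.Ok0 lam0 → ∀ q ∈ P.S, (P.y q : ℝ) ≤ Real.sqrt (P.lam q) + 1 := by
  refine ⟨8, fun P h q hq => ?_⟩
  have hl : 8 ≤ P.lam q := h.lam_ge q hq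
  set e : ℝ := rhoC * P.lam q with he
  have he0 : 0 ≤ e := by rw [he, rhoC]; positivity
  obtain ⟨hB, hd⟩ := shortVec_bounds (h.short q hq)
  have hψ := h.psi_pos q hq
  have hd' : |(P.B q : ℝ) * P.γ - P.A q| / P.ψ q ≤ Real.exp (e / 2) := by
    rw [div_le_iff₀ hψ]
    refine hd.trans (le_trans (le_of_eq ?_)
      (mul_le_mul_of_nonneg_left (h.le_psi q hq) (Real.exp_pos _).le))
    rw [← Real.exp_add, ← he]
    ring_nf
  have harg : 2 + (P.B q : ℝ) + |(P.B q : ℝ) * P.γ - P.A q| / P.ψ q ≤ Real.exp (P.lam q) := by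
    have h1 : 1 ≤ Real.exp (e / 2) := Real.one_le_exp (by linarith)
    have h2 : 4 * Real.exp (e / 2) ≤ Real.exp (P.lam q) := by
      have h3 : Real.exp (e / 2) * Real.exp 3 ≤ Real.exp (P.lam q) := by
        rw [← Real.exp_add]
        refine Real.exp_le_exp.2 ?_
        rw [he, rhoC]
        linarith
      have h4 : (4 : ℝ) ≤ Real.exp 3 := by linarith [Real.add_one_le_exp (3 : ℝ)]
      have := mul_le_mul_of_nonneg_left h4 (Real.exp_pos (e / 2)).le
      linarith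
    linarith
  have hlog : Real.log (2 + (P.B q : ℝ) + |(P.B q : ℝ) * P.γ - P.A q| / P.ψ q) ≤ P.lam q :=
    (Real.log_le_log (by positivity) harg).trans (Real.log_exp _).le
  have hs := Real.sqrt_le_sqrt hlog
  have hc := Nat.ceil_lt_add_one (Real.sqrt_nonneg
    (Real.log (2 + (P.B q : ℝ) + |(P.B q : ℝ) * P.γ - P.A q| / P.ψ q)))
  simp only [Sys.y, yCut]
  linarith

theorem excTerm_nonneg {lam0 : ℝ} (h : P.Ok0 lam0) (q r : ℕ) : 0 ≤ P.excTerm q r := by
  have h1 := BilinearAux.wt_nonneg h.nonneg q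
  have h2 := BilinearAux.wt_nonneg h.nonneg r
  have h3 : 0 ≤ dist2 P.ψ q r := le_max_of_le_left (mul_nonneg (h.nonneg q) (Nat.cast_nonneg _))
  rw [Sys.excTerm]
  split_ifs <;> first
    | exact le_rfl
    | exact div_nonneg (mul_nonneg zero_le_two (mul_nonneg (by assumption) (h.nonneg _))) h3

theorem ok_mono {a b : ℝ} (h : P.Ok0 a) (hb : b ≤ a) : P.Ok0 b :=
  { h with lam_ge := fun q hq => hb.trans (h.lam_ge q hq) }

theorem psi_le_half {lam0 : ℝ} (h0 : 2 ≤ lam0) (h : P.Ok0 lam0) {q : ℕ} (hq : q ∈ P.S) :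
    P.ψ q ≤ 1 / 2 := by
  refine (h.psi_le q hq).trans ?_
  rw [Real.exp_neg, inv_le_comm₀ (Real.exp_pos _) (by norm_num)]
  linarith [Real.add_one_le_exp (P.lam q), h.lam_ge q hq]

/-- The coincidences on the line. -/
theorem coin_line_le {lam0 : ℝ} (h : P.Ok0 lam0) {q r : ℕ} (hq : q ∈ P.S) (hr : r ∈ P.S)
    (hne : q ≠ r) :
    2 * (P.ψ q * P.ψ r / (Nat.gcd q r * dist2 P.ψ q r)) *
        ∑ n ∈ (nearSet P.γ P.ψ q r).filter (fun n => ¬ P.Good q r n),
          wConst (P.Bt q) q * wConst (P.Bt r) r *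
            (coinSet (P.At q) (P.Bt q) (P.At r) (P.Bt r) q r n).card ≤ P.excTerm q r := by
  have hq0 := h.pos q hq
  have hr0 := h.pos r hr
  have hψq := h.psi_pos q hq
  have hψr := h.psi_pos r hr
  have hD := dist2_pos (ψ := P.ψ) hr0 hψq (q := q)
  have hg : (0 : ℝ) < Nat.gcd q r := by exact_mod_cast Nat.gcd_pos_of_pos_left r hq0
  set c := 2 * (P.ψ q * P.ψ r / (Nat.gcd q r * dist2 P.ψ q r)) with hc
  set S0 := ((nearSet P.γ P.ψ q r).filter (fun n => ¬ P.Good q r n)).filter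
    (fun n => (coinSet (P.At q) (P.Bt q) (P.At r) (P.Bt r) q r n).Nonempty) with hS0
  rw [← sum_subset (filter_subset _ _) (s₁ := S0) fun n hn hn' => by
    have : coinSet (P.At q) (P.Bt q) (P.At r) (P.Bt r) q r n = ∅ :=
      not_nonempty_iff_eq_empty.1 fun h' => hn' (mem_filter.2 ⟨hn, h'⟩)
    simp [this]]
  rcases S0.eq_empty_or_nonempty with he | ⟨n, hn⟩
  · rw [he, sum_empty, mul_zero]
    exact excTerm_nonneg h q r
  obtain ⟨hn1, ⟨⟨a0, b0⟩, h0⟩⟩ := mem_filter.1 hn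
  obtain ⟨hnear, hgood⟩ := mem_filter.1 hn1
  obtain ⟨hA, hB, hz⟩ : P.A q = P.A r ∧ P.B q = P.B r ∧ zform (P.A q) (P.B q) q r n = 0 :=
    not_not.1 hgood
  have hcop := (h.short q hq).coprime
  have hkq : ∀ p ∈ (qd q r).primeFactors, p ≤ P.y q := fun p hp =>
    coin_kill hq0 hcop hz h0 hp
  have hkr : ∀ p ∈ (qd r q).primeFactors, p ≤ P.y r := by
    refine fun p hp => coin_kill hr0 (h.short r hr).coprime ?_
      (swap_mem_coinSet h0) hp
    rw [← hA, ← hB]
    rw [zform, mdiff] at hz ⊢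
    linear_combination (-1 : ℤ) * hz
  have hexc : P.Exc q r := ⟨hne, hA, hB, ⟨n, hnear, hz⟩, hkq, hkr⟩
  have hsing : S0 = {n} := by
    refine eq_singleton_iff_unique_mem.2 ⟨hn, fun k hk => ?_⟩
    have hk' := not_not.1 (mem_filter.1 (mem_filter.1 hk).1).2
    have hB0 : (P.B q : ℤ) ≠ 0 := by exact_mod_cast (h.short q hq).B_pos.ne'
    have e := hk'.2.2
    rw [zform] at e hz
    exact mul_right_cancel₀ hB0 (by linarith)
  rw [hsing, sum_singleton, Sys.excTerm, if_pos hexc]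
  have hdvd : ∀ (q r : ℕ), 0 < q → (∀ p ∈ (qd q r).primeFactors, p ≤ P.y q) →
      ∀ p : ℕ, p.Prime → p ∣ qd q r → p ∣ P.Bt q := fun q r hq hk p hp hd =>
    (prime_dvd_Bt_iff P q hp).2 (Or.inr (hk p (mem_primeFactors_of (qd_pos hq) hp hd)))
  have hr' : wConst (P.Bt q) q * wConst (P.Bt r) r *
      (coinSet (P.At q) (P.Bt q) (P.At r) (P.Bt r) q r n).card ≤
        Nat.gcd q r * ((Nat.totient r : ℝ) / r) := by
    refine (coinSet_card_le hq0 hr0 h0 r.primeFactors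
      fun p => Nat.prime_of_mem_primeFactors).trans (mul_le_mul_of_nonneg_left ?_ hg.le)
    rw [Vale.Agent.P028.totient_div_eq hr0]
    exact prod_le_prod (fun p hp => lineAvg_nonneg _ _ _ _ q r _ _ (Nat.prime_of_mem_primeFactors hp))
      fun p hp => lineAvg_le_right _ _ _ _ (Nat.prime_of_mem_primeFactors hp)
        (hdvd r q hr0 hkr p (Nat.prime_of_mem_primeFactors hp))
  have hq' : wConst (P.Bt q) q * wConst (P.Bt r) r *
      (coinSet (P.At q) (P.Bt q) (P.At r) (P.Bt r) q r n).card ≤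
        Nat.gcd q r * ((Nat.totient q : ℝ) / q) := by
    refine (coinSet_card_le hq0 hr0 h0 q.primeFactors
      fun p => Nat.prime_of_mem_primeFactors).trans (mul_le_mul_of_nonneg_left ?_ hg.le)
    rw [Vale.Agent.P028.totient_div_eq hq0]
    exact prod_le_prod (fun p hp => lineAvg_nonneg _ _ _ _ q r _ _ (Nat.prime_of_mem_primeFactors hp))
      fun p hp => lineAvg_le_left _ _ _ _ (Nat.prime_of_mem_primeFactors hp)
        (hdvd q r hq0 hkq p (Nat.prime_of_mem_primeFactors hp))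
  have hc0 : 0 ≤ c := by positivity
  split_ifs
  · refine (mul_le_mul_of_nonneg_left hr' hc0).trans (le_of_eq ?_)
    rw [hc, wt]
    field_simp
  · refine (mul_le_mul_of_nonneg_left hq' hc0).trans (le_of_eq ?_)
    rw [hc, wt]
    field_simp

theorem ov_self_le {lam0 : ℝ} (h0 : 2 ≤ lam0) (h : P.Ok0 lam0) {q : ℕ} (hq : q ∈ P.S) :
    P.ov q q ≤ 2 * wt P.ψ q := by
  have hq0 := h.pos q hq
  have hψ0 := (h.psi_pos q hq).le
  have hψ2 : P.ψ q ≤ 1 / 2 := psi_le_half h0 h hq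
  have hint : Integrable (fun x => P.bmp q x) := by
    simp only [Sys.bmp, bump_eq]
    exact (integrable_finsetSum _ fun a _ => integrable_indicator_arc P.γ P.ψ q a).const_mul _
  have hb : ∀ x, 0 ≤ P.bmp q x ∧ P.bmp q x ≤ 1 := bmp_mem P hq0 hψ2
  calc P.ov q q ≤ ∫ x, P.bmp q x := by
        refine integral_mono_of_nonneg (Filter.Eventually.of_forall fun x =>
          mul_nonneg (hb x).1 (hb x).1) hint (Filter.Eventually.of_forall fun x => ?_)
        exact mul_le_of_le_one_right (hb x).1 (hb x).2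
    _ = 2 * wt P.ψ q :=
        integral_bump P.γ P.ψ (P.At q) (P.Bt q) q hq0 hψ0 hψ2 (isCoprime_At_Bt P q)

/-- The overlap of two different moduli. -/
theorem ov_le {lam0 : ℝ} (h : P.Ok0 lam0) {q r : ℕ} (hq : q ∈ P.S) (hr : r ∈ P.S) (hne : q ≠ r) :
    P.ov q r ≤ 2 * P.gTerm q r + P.excTerm q r := by
  have hq0 := h.pos q hq
  have hr0 := h.pos r hr
  have hψq := h.psi_pos q hq
  have hψr := h.psi_pos r hr
  have hD := dist2_pos (ψ := P.ψ) hr0 hψq (q := q)
  have hg : (0 : ℝ) < Nat.gcd q r := by exact_mod_cast Nat.gcd_pos_of_pos_left r hq0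
  set c := 2 * (P.ψ q * P.ψ r / (Nat.gcd q r * dist2 P.ψ q r)) with hc
  have hc0 : 0 ≤ c := by positivity
  refine (integral_bump_mul_le_coin (P.At q) (P.Bt q) (P.At r) (P.Bt r) hq0 hr0 hψq hψr).trans ?_
  rw [← hc, ← sum_filter_add_sum_filter_not (nearSet P.γ P.ψ q r) (fun n => P.Good q r n), mul_add]
  refine add_le_add ?_ ?_
  · refine (mul_le_mul_of_nonneg_left (sum_le_sum fun n _ => coin_le hq0 hr0 n) hc0).trans
      (le_of_eq ?_)
    rw [← mul_sum, ← mul_assoc, Sys.gTerm, Sys.goodSet, ← mul_assoc 2, hc, wt, wt]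
    congr 1
    field_simp
  · exact coin_line_le h hq hr hne

theorem goodSet_nonempty_symm {lam0 : ℝ} (h : P.Ok0 lam0) {q r : ℕ} (hq : q ∈ P.S) (hr : r ∈ P.S) :
    (P.goodSet q r).Nonempty → (P.goodSet r q).Nonempty := by
  rintro ⟨n, hn⟩
  exact ⟨-n, neg_mem_goodSet hn⟩

theorem gTerm_comm {lam0 : ℝ} (h : P.Ok0 lam0) {q r : ℕ} (hq : q ∈ P.S) (hr : r ∈ P.S) :
    P.gTerm q r = P.gTerm r q := by
  have e : ∑ n ∈ P.goodSet q r, hFac 0 (qd q r * qd r q) * P.wF 0 q r n =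
      ∑ n ∈ P.goodSet r q, hFac 0 (qd r q * qd q r) * P.wF 0 r q n := by
    refine sum_nbij' (fun n => -n) (fun n => -n) (fun n hn => neg_mem_goodSet hn)
      (fun n hn => neg_mem_goodSet hn) (fun n _ => neg_neg n) (fun n _ => neg_neg n)
      fun n _ => ?_
    rw [wF_swap, mul_comm (qd q r) (qd r q)]
  rw [Sys.gTerm, Sys.gTerm, e, BilinearAux.dist2_comm, mul_comm (wt P.ψ q)]

/-- In one window a coincidence off the line costs a bounded factor. -/
theorem exists_wF_same_le :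
    ∃ C lam0 : ℝ, ∀ P : Sys, P.Ok0 lam0 → ∀ q ∈ P.S, ∀ r ∈ P.S, P.lam q = P.lam r →
      dist2 P.ψ q r < 1 / 2 → ∀ n ∈ P.goodSet q r, P.wF 0 q r n ≤ C := by
  obtain ⟨C, hC1, hC⟩ := exists_prod_ratio_le
  refine ⟨C, 0, fun P h q hq r hr hlam hD n hn => ?_⟩
  obtain ⟨hA, hB⟩ := h.const q hq r hr hlam
  obtain ⟨hnear, hgood⟩ := mem_filter.1 hn
  set Z : ℤ := zform (P.A q) (P.B q) q r n with hZd
  have hZ : Z ≠ 0 := fun h0 => hgood ⟨hA, hB, h0⟩
  rw [Sys.wF]
  set s := (Nat.gcd q r).primeFactors.filter (fun p => 0 < p ∧ P.y q < p ∧ P.y r < p ∧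
    ¬ p ∣ qd q r * qd r q ∧ ¬ p ∣ P.B q ∧ ¬ p ∣ P.B r ∧
    (p : ℤ) ∣ zform2 (P.A q) (P.B q) (P.A r) (P.B r) q r n) with hs
  set P0 := max (P.y q) (P.y r) with hP0
  refine hC P0 s (fun p hp => ?_) ?_
  · obtain ⟨h1, -, h2, h3, -⟩ := mem_filter.1 hp
    exact ⟨Nat.prime_of_mem_primeFactors h1, max_lt h2 h3⟩
  have hsub : ∀ p ∈ s, p ∣ Z.natAbs := by
    intro p hp
    obtain ⟨h1, -, -, -, -, hpB, -, hpZ⟩ := mem_filter.1 hp
    have hpi := Nat.prime_iff_prime_int.1 (Nat.prime_of_mem_primeFactors h1)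
    rw [← hA, ← hB] at hpZ
    have e : zform2 (P.A q) (P.B q) (P.A q) (P.B q) q r n = (P.B q : ℤ) * Z := by
      rw [hZd, zform2, zform, mdiff]
      ring
    rw [e] at hpZ
    exact Int.natCast_dvd.1 ((hpi.dvd_or_dvd hpZ).resolve_left fun h0 =>
      hpB (Int.natCast_dvd_natCast.1 h0))
  have hcard : (2 : ℝ) ^ s.card ≤ |(Z : ℝ)| := by
    have h2 : 2 ^ s.card ≤ Z.natAbs :=
      (pow_card_le_prod s _ 2 fun p hp =>
        (Nat.prime_of_mem_primeFactors (mem_filter.1 hp).1).two_le).trans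
        (Nat.le_of_dvd (Int.natAbs_pos.2 hZ)
          ((prod_dvd_prod_of_subset _ _ (fun p => p) fun p hp => mem_primeFactors_of
            (Int.natAbs_pos.2 hZ) (Nat.prime_of_mem_primeFactors (mem_filter.1 hp).1)
            (hsub p hp)).trans (Nat.prod_primeFactors_dvd _)))
    rw [← Int.cast_abs, Int.abs_eq_natAbs]
    exact_mod_cast h2
  have hψq := h.psi_pos q hq
  have hψr := h.psi_pos r hr
  set δ := |(P.B q : ℝ) * P.γ - P.A q| with hδ
  have hwin : ∀ t : ℕ, P.y t ≤ P0 → P.A t = P.A q → P.B t = P.B q → 0 < P.ψ t →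
      (P.B q : ℝ) + δ / P.ψ t ≤ Real.exp ((P0 : ℝ) ^ 2) := by
    intro t ht hAt hBt hψ
    have hy : Real.sqrt (Real.log (2 + (P.B q : ℝ) + δ / P.ψ t)) ≤ (P0 : ℝ) := by
      refine le_trans ?_ (Nat.cast_le.2 ht)
      rw [Sys.y, yCut, hAt, hBt]
      exact Nat.le_ceil _
    rw [Real.sqrt_le_left (Nat.cast_nonneg _), Real.log_le_iff_le_exp (by positivity)] at hy
    linarith
  have hwq := hwin q (le_max_left _ _) rfl rfl hψq
  have hwr := hwin r (le_max_right _ _) hA.symm hB.symm hψr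
  have hm : δ * |(mdiff q r : ℝ)| ≤ dist2 P.ψ q r * (δ / P.ψ q + δ / P.ψ r) := by
    have d1 : P.ψ q * qd r q ≤ dist2 P.ψ q r := le_max_left _ _
    have d2 : P.ψ r * qd q r ≤ dist2 P.ψ q r := le_max_right _ _
    rw [← le_div_iff₀' hψq] at d1
    rw [← le_div_iff₀' hψr] at d2
    have hm1 : |(mdiff q r : ℝ)| ≤ dist2 P.ψ q r / P.ψ q + dist2 P.ψ q r / P.ψ r := by
      rw [mdiff]
      push_cast
      refine (abs_sub _ _).trans ?_
      rw [Nat.abs_cast, Nat.abs_cast]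
      linarith
    refine (mul_le_mul_of_nonneg_left hm1 (abs_nonneg _)).trans (le_of_eq ?_)
    rw [hδ]
    ring
  have hZle : |(Z : ℝ)| ≤ 2 * Real.exp ((P0 : ℝ) ^ 2) := by
    have e : (Z : ℝ) = (P.B q : ℝ) * ((n : ℝ) + P.γ * mdiff q r) -
        ((P.B q : ℝ) * P.γ - P.A q) * mdiff q r := by
      rw [hZd, zform]
      push_cast
      ring
    rw [e]
    refine (abs_sub _ _).trans ?_
    rw [abs_mul, abs_mul, Nat.abs_cast, ← hδ]
    have h1 := mul_le_mul_of_nonneg_left (mem_nearSet.1 hnear).le (Nat.cast_nonneg (α := ℝ) (P.B q))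
    have hB0 : (0 : ℝ) ≤ P.B q := Nat.cast_nonneg _
    have hX : 0 ≤ 2 * (P.B q : ℝ) + δ / P.ψ q + δ / P.ψ r := by positivity
    have h2 := mul_le_of_le_one_left hX (show dist2 P.ψ q r ≤ 1 by linarith)
    linarith
  have hlog := Real.log_le_log (by positivity) (hcard.trans hZle)
  rw [Real.log_pow, Real.log_mul two_ne_zero (Real.exp_pos _).ne', Real.log_exp] at hlog
  have hP00 : (0 : ℝ) ≤ P0 := Nat.cast_nonneg _
  have hl2 : (s.card : ℝ) * (1 / 2) ≤ s.card * Real.log 2 :=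
    mul_le_mul_of_nonneg_left (by linarith [Real.log_two_gt_d9]) (Nat.cast_nonneg _)
  nlinarith [Real.log_two_lt_d9, sq_nonneg (P0 : ℝ)]

/-- A small pair of one window. -/
theorem exists_gTerm_same_le :
    ∃ C lam0 : ℝ, ∀ P : Sys, P.Ok0 lam0 → ∀ q ∈ P.S, ∀ r ∈ P.S, P.lam q = P.lam r →
      dist2 P.ψ q r < 1 / 2 →
      P.gTerm q r ≤ if (P.goodSet q r).Nonempty then
          C * hFac 0 (qd q r * qd r q) * (wt P.ψ q * wt P.ψ r / dist2 P.ψ q r)
        else 0 := by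
  obtain ⟨C, lam0, hC⟩ := exists_wF_same_le
  refine ⟨3 * max C 0, lam0, fun P h q hq r hr hlam hD => ?_⟩
  split_ifs with hne
  swap
  · rw [not_nonempty_iff_eq_empty] at hne
    rw [Sys.gTerm, hne, sum_empty, mul_zero]
  have hD0 : 0 ≤ dist2 P.ψ q r := (dist2_pos (h.pos r hr) (h.psi_pos q hq)).le
  have hW : 0 ≤ wt P.ψ q * wt P.ψ r / dist2 P.ψ q r :=
    div_nonneg (mul_nonneg (BilinearAux.wt_nonneg h.nonneg q) (BilinearAux.wt_nonneg h.nonneg r)) hD0
  have hh : 0 ≤ hFac 0 (qd q r * qd r q) := zero_le_one.trans (BilinearAux.one_le_hFac _ _)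
  have hcard : ((P.goodSet q r).card : ℝ) ≤ 3 := by
    have hlt := Lift.card_int_near (s := P.goodSet q r) (z := -(P.γ * mdiff q r))
      (R := 2 * dist2 P.ψ q r) (by linarith) fun k hk => by
        rw [sub_neg_eq_add]
        exact (mem_nearSet.1 (mem_filter.1 hk).1).le
    linarith
  rw [Sys.gTerm, mul_comm (3 * max C 0 * _)]
  refine mul_le_mul_of_nonneg_left ?_ hW
  refine (sum_le_card_nsmul _ _ (hFac 0 (qd q r * qd r q) * max C 0) fun n hn =>
    mul_le_mul_of_nonneg_left ((hC P h q hq r hr hlam hD n hn).trans (le_max_left _ _)) hh).trans ?_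
  rw [nsmul_eq_mul]
  refine (mul_le_mul_of_nonneg_right hcard (mul_nonneg hh (le_max_right _ _))).trans (le_of_eq ?_)
  ring

end Vale.Agent.P028.W1
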