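import Vale.Agent.P028.W1.Gain
import Vale.Agent.P028.W1.Kill
import Vale.Agent.P028.W1.Overlap
import Vale.Agent.P028.T2.SameWindow

/-!
One level below `Λ ^ (-levC)` of one window.
-/

noncomputable section

namespace Vale.Agent.P028.W1

open Finset T2
open scoped Classical

/-- A pair of one window with a coincidence off the line, at a level above `exp (-0.49 Λ)`, is bad. -/
theorem exists_badPair_of_good :
    ∃ lam0 x0 : ℝ, 0 < x0 ∧ ∀ P : Sys, P.Ok0 lam0 → ∀ q ∈ P.S, ∀ r ∈ P.S, q ≠ r →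
      P.lam q = P.lam r → ∀ x : ℝ, Real.exp (-(49 / 100 * P.lam q)) ≤ x → x ≤ x0 →
      dist2 P.ψ q r ≤ 2 * x → (P.goodSet q r).Nonempty →
      BadPair P.γ P.ψ (P.lam q) x q r := by
  obtain ⟨l, x0, hx0, hk⟩ := exists_kill
  refine ⟨l, x0, hx0, fun P hP q hq r hr hne hlam x hxl hxu hd ⟨n, hn⟩ => ?_⟩
  obtain ⟨hn1, hgood⟩ := mem_filter.1 hn
  have hnear := (mem_filter.1 hn1).2
  have hn4 : |(n : ℝ) + P.γ * mdiff q r| ≤ 4 * x := by linarith
  exact ⟨hne, hd, ⟨n, hn4⟩, fun ⟨hT, hM⟩ =>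
    hgood (hk P hP q hq r hr hlam.le x hxl hxu hd hT hM n hn4)⟩

/-- One level of one window. -/
theorem exists_sameLevel_le :
    ∃ C lam0 x0 : ℝ, 0 < x0 ∧ 0 ≤ C ∧ ∀ P : Sys, P.Ok0 lam0 → ∀ S : Finset ℕ, S ⊆ P.S →
      ∀ Λ : ℝ, (∀ q ∈ S, P.lam q = Λ) → ∀ x : ℝ,
      Real.exp (-(49 / 100 * Λ)) ≤ x → x ≤ x0 → x ≤ Λ ^ (-levC) →
      ∑ v ∈ S, ∑ w ∈ S.filter (fun w => v ≠ w ∧ dist2 P.ψ v w ≤ 2 * x ∧
          (P.goodSet v w).Nonempty),
          hFac 0 (qd v w * qd w v) * (wt P.ψ v * wt P.ψ w) / x ≤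
        C * (mass P.ψ S + mass P.ψ S ^ 2) * x ^ (3 / 100000000 : ℝ) := by
  obtain ⟨l1, x1, hx1, hbad⟩ := exists_badPair_of_good
  obtain ⟨Cg, l2, x2, hx2, hgain⟩ := exists_gainSame_le
  obtain ⟨Cm, hmom⟩ := exists_moment_le (10 ^ 6) (by norm_num)
  refine ⟨max Cg 0 + 2 * max Cm 0, max l1 l2, min (min x1 x2) 1, by positivity, by positivity,
    fun P hP S hS Λ hΛ x hxl hxu hlev => ?_⟩
  simp only [le_min_iff] at hxu
  obtain ⟨⟨hxu1, hxu2⟩, hxu3⟩ := hxu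
  have hP1 : P.Ok0 l1 := ok_mono hP (le_max_left _ _)
  have hP2 : P.Ok0 l2 := ok_mono hP (le_max_right _ _)
  have hx : 0 < x := lt_of_lt_of_le (Real.exp_pos _) hxl
  have hg := hgain P hP2 S hS Λ hΛ x hxl hxu2 hlev
  have hm := hmom P.ψ S (2 * x) 0 (10 ^ 6) (fun q hq => hP.pos q (hS hq)) hP.nonneg (by linarith)
    (by norm_num)
  have hw : ∀ q, 0 ≤ wt P.ψ q := BilinearAux.wt_nonneg hP.nonneg
  have hμ : 0 ≤ mass P.ψ S + mass P.ψ S ^ 2 := by
    have := BilinearAux.mass_nonneg hP.nonneg S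
    positivity
  set μ2 := mass P.ψ S + mass P.ψ S ^ 2 with hμ2
  -- the threshold
  set a : ℝ := 2 / 100000000 with ha
  set t : ℝ := x ^ (-a) with ht
  have ht0 : 0 < t := Real.rpow_pos_of_pos hx _
  set j : ℕ := 10 ^ 6 - 1 with hj
  have hjk : j + 1 = 10 ^ 6 := by norm_num [hj]
  have hjR : (j : ℝ) = 999999 := by norm_num [hj]
  have hW : (2 : ℝ) ^ (993 / 1000 : ℝ) ≤ 2 := by
    calc (2 : ℝ) ^ (993 / 1000 : ℝ) ≤ 2 ^ (1 : ℝ) :=
          Real.rpow_le_rpow_of_exponent_le one_le_two (by norm_num)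
      _ = 2 := Real.rpow_one _
  -- pointwise
  have hpt : ∀ v ∈ S, ∀ w ∈ S,
      (if v ≠ w ∧ dist2 P.ψ v w ≤ 2 * x ∧ (P.goodSet v w).Nonempty then
        hFac 0 (qd v w * qd w v) * (wt P.ψ v * wt P.ψ w) / x else 0) ≤
      t / x * (if BadPair P.γ P.ψ Λ x v w then wt P.ψ v * wt P.ψ w else 0) +
        (t ^ j)⁻¹ / x * (if v ≠ w ∧ dist2 P.ψ v w ≤ 2 * x then
          wt P.ψ v * wt P.ψ w * hFac 0 (qd v w * qd w v) ^ (10 ^ 6) else 0) := by
    intro v hv w hw'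
    have hh : 0 ≤ hFac 0 (qd v w * qd w v) := le_trans zero_le_one (BilinearAux.one_le_hFac _ _)
    have hF := mul_nonneg (hw v) (hw w)
    by_cases h : v ≠ w ∧ dist2 P.ψ v w ≤ 2 * x ∧ (P.goodSet v w).Nonempty
    · obtain ⟨h1, h2, h3⟩ := h
      have hlam : P.lam v = P.lam w := by rw [hΛ v hv, hΛ w hw']
      have hb : BadPair P.γ P.ψ Λ x v w := hΛ v hv ▸
        hbad P hP1 v (hS hv) w (hS hw') h1 hlam x (by rw [hΛ v hv]; exact hxl) hxu1 h2 h3
      rw [if_pos ⟨h1, h2, h3⟩, if_pos hb, if_pos ⟨h1, h2⟩, ← hjk]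
      have := mul_le_mul_of_nonneg_right (le_threshold_add_pow hh ht0 j) (div_nonneg hF hx.le)
      refine le_trans (le_of_eq ?_) (this.trans (le_of_eq ?_)) <;> ring
    · rw [if_neg h]
      refine add_nonneg (mul_nonneg (by positivity) ?_) (mul_nonneg (by positivity) ?_)
      · split_ifs
        exacts [hF, le_rfl]
      · split_ifs
        exacts [mul_nonneg hF (pow_nonneg hh _), le_rfl]
  calc _ ≤ ∑ v ∈ S, ∑ w ∈ S, (t / x * (if BadPair P.γ P.ψ Λ x v w then wt P.ψ v * wt P.ψ w else 0) +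
        (t ^ j)⁻¹ / x * (if v ≠ w ∧ dist2 P.ψ v w ≤ 2 * x then
          wt P.ψ v * wt P.ψ w * hFac 0 (qd v w * qd w v) ^ (10 ^ 6) else 0)) := by
        refine sum_le_sum fun v hv => ?_
        rw [sum_filter]
        exact sum_le_sum fun w hw' => hpt v hv w hw'
    _ = t / x * ∑ v ∈ S, ∑ w ∈ S.filter (fun w => BadPair P.γ P.ψ Λ x v w),
          wt P.ψ v * wt P.ψ w +
        (t ^ j)⁻¹ / x * ∑ v ∈ S, ∑ w ∈ S.filter (fun w => v ≠ w ∧ dist2 P.ψ v w ≤ 2 * x),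
          wt P.ψ v * wt P.ψ w * hFac 0 (qd v w * qd w v) ^ (10 ^ 6) := by
        simp only [sum_add_distrib, ← mul_sum, ← sum_filter]
    _ ≤ t / x * (max Cg 0 * μ2 * x ^ (1 + gainC)) +
        (t ^ j)⁻¹ / x * (max Cm 0 * μ2 * (2 * x ^ (993 / 1000 : ℝ))) := by
        refine add_le_add (mul_le_mul_of_nonneg_left (hg.trans ?_) (by positivity))
          (mul_le_mul_of_nonneg_left (hm.trans ?_) (by positivity))
        · gcongr; exact le_max_left _ _
        · refine mul_le_mul (mul_le_mul_of_nonneg_right (le_max_left _ _) hμ) ?_ (by positivity)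
            (mul_nonneg (le_max_right _ _) hμ)
          rw [Real.mul_rpow zero_le_two hx.le]
          exact mul_le_mul_of_nonneg_right hW (Real.rpow_nonneg hx.le _)
    _ = max Cg 0 * μ2 * x ^ (gainC - a) + 2 * max Cm 0 * μ2 * x ^ (a * j - 7 / 1000) := by
        have e1 : x ^ (gainC - a) = t * x ^ (1 + gainC) / x := by
          rw [eq_div_iff hx.ne', ← Real.rpow_add_one hx.ne', ht, ← Real.rpow_add hx]
          ring_nf
        have e2 : x ^ (a * j - 7 / 1000) = (t ^ j)⁻¹ * x ^ (993 / 1000 : ℝ) / x := by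
          rw [eq_div_iff hx.ne', ← Real.rpow_add_one hx.ne', ht, ← Real.rpow_natCast,
            ← Real.rpow_mul hx.le, ← Real.rpow_neg hx.le, ← Real.rpow_add hx]
          ring_nf
        rw [e1, e2]
        ring
    _ ≤ max Cg 0 * μ2 * x ^ (3 / 100000000 : ℝ) + 2 * max Cm 0 * μ2 * x ^ (3 / 100000000 : ℝ) :=
        add_le_add
          (mul_le_mul_of_nonneg_left (le_of_eq (by norm_num [gainC, ha]))
            (mul_nonneg (le_max_right _ _) hμ))
          (mul_le_mul_of_nonneg_left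
            (Real.rpow_le_rpow_of_exponent_ge hx hxu3 (by rw [hjR, ha]; norm_num))
            (mul_nonneg (mul_nonneg zero_le_two (le_max_right _ _)) hμ))
    _ = _ := by rw [hμ2]; ring

end Vale.Agent.P028.W1
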