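import Vale.Agent.P028.W1.SecondMoment
import Vale.Agent.P028.W1.Blocks
import Vale.Agent.P028.T2.Main
import Vale.Agent.P028.Full.LargePsi

/-!
Q1 up to an arbitrarily small power of `log (1 / ψ)`, hence of `log log q`.
-/

noncomputable section

namespace Vale.Agent.P028.W1

open Filter MeasureTheory T2

/-- Divergence with a loss of `(log (2 + 1 / ψ)) ^ ε` gives full measure. -/
theorem weakDS_window (ε : ℝ) (hε : 0 < ε) (γ : ℝ) (ψ : ℕ → ℝ) (hψ : ∀ q, 0 ≤ ψ q)
    (hdiv : ¬ Summable (fun q : ℕ => wt ψ q / Real.log (2 + 1 / ψ q) ^ ε)) :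
    volume (approxSet γ ψ)ᶜ = 0 := by
  by_cases hbig : ∃ c : ℝ, 0 < c ∧ {q : ℕ | c ≤ ψ q}.Infinite
  · obtain ⟨c, hc, hinf⟩ := hbig
    exact Full.null_compl_of_large γ ψ c hc hinf
  push Not at hbig
  suffices key : ∀ γ : ℝ, 0 ≤ γ → γ < 1 → volume (approxSet γ ψ)ᶜ = 0 by
    rw [← approxSet_sub_int γ ψ ⌊γ⌋]
    exact key _ (by linarith [Int.floor_le γ]) (by linarith [Int.lt_floor_add_one γ])
  clear γ
  intro γ hγ hγ1
  obtain ⟨C, lam0, hmain⟩ := exists_secondMoment_le (ε / 2) (by linarith)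
  have hrho : (1 : ℝ) < rhoC := by norm_num [rhoC]
  have hr0 : (0 : ℝ) < rhoC := by linarith
  -- the radii are eventually small
  set e : ℝ := Real.exp (-(rhoC * max lam0 1)) with he
  obtain ⟨q1, hq1⟩ := (hbig e (Real.exp_pos _)).bddAbove
  set q0 := q1 + 1 with hq0
  set φ : ℕ → ℝ := fun q => if q0 ≤ q then ψ q else 0 with hφd
  have hφ : ∀ q, 0 ≤ φ q ∧ φ q ≤ ψ q := by
    intro q
    simp only [hφd]
    split
    · exact ⟨hψ q, le_rfl⟩
    · exact ⟨le_rfl, hψ q⟩
  have hsupp : ∀ q, φ q ≠ 0 → q0 ≤ q ∧ φ q = ψ q ∧ 0 < φ q ∧ φ q ≤ Real.exp (-1) ∧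
      Real.exp (-(rhoC * rhoC ^ winIdx (φ q))) ≤ φ q ∧ φ q ≤ Real.exp (-(rhoC ^ winIdx (φ q))) ∧
      lam0 ≤ rhoC ^ winIdx (φ q) := by
    intro q hq
    have hq' : q0 ≤ q := by
      by_contra h
      exact hq (if_neg h)
    have heq : φ q = ψ q := if_pos hq'
    have hpos : 0 < φ q := lt_of_le_of_ne (hφ q).1 (Ne.symm hq)
    have hlt : φ q < e := by
      rw [heq]
      by_contra h
      have : q ≤ q1 := hq1 (not_lt.1 h)
      omega
    have hone : (1 : ℝ) ≤ rhoC * max lam0 1 :=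
      one_le_mul_of_one_le_of_one_le hrho.le (le_max_right _ _)
    have he1 : φ q ≤ Real.exp (-1) := hlt.le.trans (Real.exp_le_exp.2 (by linarith))
    obtain ⟨hlo, hhi⟩ := winIdx_spec hpos he1
    refine ⟨hq', heq, hpos, he1, hlo, hhi, ?_⟩
    have h2 := Real.exp_le_exp.1 (hlo.trans hlt.le)
    have := le_of_mul_le_mul_left (neg_le_neg_iff.1 h2) hr0
    exact (le_max_left _ _).trans this
  have hφ2 : ∀ q, φ q ≤ 1 / 2 := by
    intro q
    by_cases hq : φ q = 0
    · rw [hq]; norm_num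
    · refine (hsupp q hq).2.2.2.1.trans ?_
      rw [Real.exp_neg, ← one_div]
      exact one_div_le_one_div_of_le (by norm_num) (by linarith [Real.add_one_le_exp (1 : ℝ)])
  choose A B hAB using fun i : ℕ =>
    exists_shortVec γ (rhoC * rhoC ^ i) (mul_nonneg hr0.le (pow_nonneg hr0.le i))
  set k : ℕ → ℕ := fun q => winIdx (φ q) with hk
  let P : Finset ℕ → Sys := fun S =>
    ⟨γ, φ, S, fun q => rhoC ^ k q, fun q => A (k q), fun q => B (k q)⟩
  refine measure_mono_null
    (Set.compl_subset_compl.2 (approxSet_mono fun q => (hφ q).2)) ?_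
  refine null_compl_of_heavy_blocks γ φ |C| hγ hγ1 (fun q => (P ∅).At q) (fun q => (P ∅).Bt q)
    (fun q => isCoprime_At_Bt _ q) (fun q => (hφ q).1) hφ2 fun Q => ?_
  -- a heavy block exists, otherwise the series converges
  obtain ⟨i, S, hS, hheavy⟩ : ∃ (i : ℕ) (S : Finset ℕ),
      (∀ q ∈ S, Q ≤ q ∧ 0 < q ∧ φ q ≠ 0 ∧ k q = i) ∧
      (rhoC ^ i) ^ (ε / 2) + 1 ≤ mass φ S := by
    by_contra hall
    push Not at hall
    refine hdiv ?_
    set Q' := max (max Q q0) 1 with hQ'
    have hterm : ∀ q, 0 ≤ wt ψ q / Real.log (2 + 1 / ψ q) ^ ε := fun q =>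
      div_nonneg (BilinearAux.wt_nonneg hψ q) (Real.rpow_nonneg (Real.log_nonneg (by
        have : 0 ≤ 1 / ψ q := div_nonneg zero_le_one (hψ q)
        linarith)) _)
    set r : ℝ := (rhoC ^ (ε / 2))⁻¹ with hr
    have hr1 : r < 1 := inv_lt_one_of_one_lt₀ (Real.one_lt_rpow hrho (by linarith))
    have hr0' : 0 ≤ r := by positivity
    rw [← summable_nat_add_iff Q']
    refine summable_of_sum_le (c := 2 * (1 - r)⁻¹) (fun q => hterm _) fun F => ?_
    classical
    set G := (F.map (addRightEmbedding Q')).filter (fun q => ψ q ≠ 0) with hG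
    have hGmem : ∀ q ∈ G, Q' ≤ q ∧ φ q = ψ q ∧ φ q ≠ 0 := by
      intro q hq
      obtain ⟨hq, hq0'⟩ := Finset.mem_filter.1 hq
      obtain ⟨p, -, rfl⟩ := Finset.mem_map.1 hq
      have hQp : Q' ≤ addRightEmbedding Q' p := by simp
      have heq : φ (addRightEmbedding Q' p) = ψ (addRightEmbedding Q' p) :=
        if_pos (le_trans (le_trans (le_max_right Q q0) (le_max_left _ _)) hQp)
      exact ⟨hQp, heq, heq ▸ hq0'⟩
    have hsum : ∑ q ∈ F, wt ψ (q + Q') / Real.log (2 + 1 / ψ (q + Q')) ^ ε =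
        ∑ q ∈ G, wt ψ q / Real.log (2 + 1 / ψ q) ^ ε := by
      rw [hG, Finset.sum_filter_of_ne, Finset.sum_map]
      · rfl
      · intro q _ hne h0
        exact hne (by simp [wt, h0])
    rw [hsum]
    calc ∑ q ∈ G, wt ψ q / Real.log (2 + 1 / ψ q) ^ ε
        ≤ ∑ q ∈ G, wt φ q / (rhoC ^ k q) ^ ε := by
          refine Finset.sum_le_sum fun q hq => ?_
          obtain ⟨-, heq, hne⟩ := hGmem q hq
          obtain ⟨-, -, hpos, -, -, hhi, -⟩ := hsupp q hne
          have hlog : rhoC ^ k q ≤ Real.log (2 + 1 / φ q) := by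
            rw [Real.le_log_iff_exp_le (by positivity)]
            have := one_div_le_one_div_of_le hpos hhi
            rw [Real.exp_neg, one_div, inv_inv] at this
            linarith
          have hw : wt ψ q = wt φ q := by rw [wt, wt, heq]
          rw [hw, ← heq]
          exact div_le_div_of_nonneg_left (BilinearAux.wt_nonneg (fun q => (hφ q).1) q)
            (Real.rpow_pos_of_pos (pow_pos hr0 _) _)
            (Real.rpow_le_rpow (pow_nonneg hr0.le _) hlog hε.le)
      _ = ∑ j ∈ G.image k, ∑ q ∈ G.filter (fun q => k q = j), wt φ q / (rhoC ^ k q) ^ ε :=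
          (Finset.sum_fiberwise_of_maps_to (fun q hq => Finset.mem_image_of_mem k hq) _).symm
      _ ≤ ∑ j ∈ G.image k, 2 * r ^ j := by
          refine Finset.sum_le_sum fun j _ => ?_
          rw [Finset.sum_congr rfl fun q hq => by rw [(Finset.mem_filter.1 hq).2], ← Finset.sum_div]
          have hlt := hall j (G.filter fun q => k q = j) fun q hq => by
            obtain ⟨hqG, hqj⟩ := Finset.mem_filter.1 hq
            obtain ⟨hQq, -, hne⟩ := hGmem q hqG
            exact ⟨le_trans (le_trans (le_max_left Q q0) (le_max_left _ _)) hQq,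
              lt_of_lt_of_le Nat.one_pos (le_trans (le_max_right _ _) hQq), hne, hqj⟩
          have hL1 : (1 : ℝ) ≤ (rhoC ^ j) ^ (ε / 2) :=
            Real.one_le_rpow (one_le_pow₀ hrho.le) (by linarith)
          have hp : (0 : ℝ) < rhoC ^ j := pow_pos hr0 _
          rw [div_le_iff₀ (Real.rpow_pos_of_pos hp _)]
          have e1 : r ^ j * (rhoC ^ j) ^ ε = (rhoC ^ j) ^ (ε / 2) := by
            have e2 : (rhoC ^ (ε / 2)) ^ j = (rhoC ^ j) ^ (ε / 2) := by
              rw [← Real.rpow_natCast _ j, ← Real.rpow_mul hr0.le, ← Real.rpow_natCast rhoC j,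
                ← Real.rpow_mul hr0.le, mul_comm]
            have e3 : (rhoC ^ j) ^ ε = (rhoC ^ j) ^ (ε / 2) * (rhoC ^ j) ^ (ε / 2) := by
              rw [← Real.rpow_add hp, add_halves]
            rw [hr, inv_pow, e2, e3, inv_mul_cancel_left₀ (Real.rpow_pos_of_pos hp _).ne']
          rw [mul_assoc, e1]
          exact (le_of_lt hlt).trans (by linarith)
      _ ≤ 2 * (1 - r)⁻¹ := by
          rw [← Finset.mul_sum, ← tsum_geometric_of_lt_one hr0' hr1]
          exact mul_le_mul_of_nonneg_left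
            ((summable_geometric_of_lt_one hr0' hr1).sum_le_tsum _ fun j _ => pow_nonneg hr0' j)
            zero_le_two
  have hp0 : (0 : ℝ) ≤ (rhoC ^ i) ^ (ε / 2) := Real.rpow_nonneg (pow_nonneg hr0.le _) _
  refine ⟨S, fun q hq => ⟨(hS q hq).1, (hS q hq).2.1⟩, by linarith, ?_⟩
  have hok : (P S).Ok0 lam0 :=
    { gamma_nonneg := hγ
      gamma_lt := hγ1
      nonneg := fun q => (hφ q).1
      pos := fun q hq => (hS q hq).2.1
      psi_pos := fun q hq => (hsupp q (hS q hq).2.2.1).2.2.1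
      le_psi := fun q hq => (hsupp q (hS q hq).2.2.1).2.2.2.2.1
      psi_le := fun q hq => (hsupp q (hS q hq).2.2.1).2.2.2.2.2.1
      lam_ge := fun q hq => (hsupp q (hS q hq).2.2.1).2.2.2.2.2.2
      short := fun q _ => hAB (k q)
      const := fun q hq r hr _ => by
        show A (k q) = A (k r) ∧ B (k q) = B (k r)
        rw [(hS q hq).2.2.2, (hS r hr).2.2.2]
        exact ⟨rfl, rfl⟩ }
  have hm := hmain (P S) hok (rhoC ^ i) (fun q hq => by
    show rhoC ^ k q = rhoC ^ i
    rw [(hS q hq).2.2.2]) (by show _ ≤ mass φ S; linarith) (by show _ ≤ mass φ S; linarith)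
  calc ∑ q ∈ S, ∑ r ∈ S, ∫ x, bump γ φ ((P ∅).At q) ((P ∅).Bt q) q x *
        bump γ φ ((P ∅).At r) ((P ∅).Bt r) r x
      = ∑ q ∈ S, ∑ r ∈ S, (P S).ov q r := rfl
    _ ≤ C * mass φ S ^ 2 := hm
    _ ≤ |C| * mass φ S ^ 2 := mul_le_mul_of_nonneg_right (le_abs_self C) (sq_nonneg _)

/-- The weight: nothing is lost below `exp (-(log log q) ^ 2)`, a power of `log (1 / ψ)` above. -/
def lossW (ε : ℝ) (ψ : ℕ → ℝ) (q : ℕ) : ℝ :=
  if ψ q ≤ Real.exp (-(Real.log (Real.log q) ^ 2)) then 1 else (Real.log (2 + 1 / ψ q) ^ ε)⁻¹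

theorem weakDS_lossW (ε : ℝ) (hε : 0 < ε) (γ : ℝ) (ψ : ℕ → ℝ) (hψ : ∀ q, 0 ≤ ψ q)
    (hdiv : ¬ Summable (fun q : ℕ => wt ψ q * lossW ε ψ q)) :
    volume (approxSet γ ψ)ᶜ = 0 := by
  set ψs : ℕ → ℝ := fun q =>
    if ψ q ≤ Real.exp (-(Real.log (Real.log q) ^ 2)) then ψ q else 0 with hψs
  have hψs0 : ∀ q, 0 ≤ ψs q ∧ ψs q ≤ ψ q := by
    intro q
    simp only [hψs]
    split
    · exact ⟨hψ q, le_rfl⟩
    · exact ⟨le_rfl, hψ q⟩
  have hlog : ∀ q, 0 ≤ wt ψ q / Real.log (2 + 1 / ψ q) ^ ε := fun q =>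
    div_nonneg (BilinearAux.wt_nonneg hψ q) (Real.rpow_nonneg (Real.log_nonneg (by
      have : 0 ≤ 1 / ψ q := div_nonneg zero_le_one (hψ q)
      linarith)) _)
  by_cases hs : Summable (fun q : ℕ => (Nat.totient q : ℝ) / q * ψs q)
  · refine weakDS_window ε hε γ ψ hψ fun hw => hdiv ?_
    refine Summable.of_nonneg_of_le (fun q => mul_nonneg (BilinearAux.wt_nonneg hψ q) ?_)
      (fun q => ?_) (hs.add hw)
    · rw [lossW]
      split
      · exact zero_le_one
      · exact inv_nonneg.2 (Real.rpow_nonneg (Real.log_nonneg (by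
          have : 0 ≤ 1 / ψ q := div_nonneg zero_le_one (hψ q)
          linarith)) _)
    · rw [lossW]
      split_ifs with h
      · have e : ψs q = ψ q := if_pos h
        rw [mul_one, e]
        exact le_add_of_nonneg_right (hlog q)
      · rw [← div_eq_mul_inv]
        exact le_add_of_nonneg_left (mul_nonneg (by positivity) (hψs0 q).1)
  · refine measure_mono_null (Set.compl_subset_compl.2 (approxSet_mono fun q => (hψs0 q).2)) ?_
    refine exists_weakDS_T2 γ ψs (fun q => (hψs0 q).1) (Eventually.of_forall fun q => ?_) hs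
    simp only [hψs]
    split
    · assumption
    · exact (Real.exp_pos _).le

/-- `-log log q < 1` also for the small `q`. -/
theorem neg_log_log_le (q : ℕ) : -1 ≤ Real.log (Real.log q) := by
  rcases Nat.lt_or_ge q 2 with h | h
  · interval_cases q <;> simp
  have h2 : Real.log 2 ≤ Real.log q := Real.log_le_log two_pos (by exact_mod_cast h)
  have h3 : Real.exp (-1) ≤ Real.log 2 := by
    refine le_trans ?_ (le_of_lt Real.log_two_gt_d9)
    rw [Real.exp_neg]
    have := inv_anti₀ (by norm_num : (0 : ℝ) < 2.7) (le_of_lt (lt_trans (by norm_num) Real.exp_one_gt_d9))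
    refine this.trans (by norm_num)
  rw [Real.le_log_iff_exp_le (by linarith [Real.log_pos one_lt_two])]
  linarith

/-- Divergence with a loss of `(log log q) ^ ε`. -/
theorem weakDS_loglog (ε : ℝ) (hε : 0 < ε) (γ : ℝ) (ψ : ℕ → ℝ) (hψ : ∀ q, 0 ≤ ψ q)
    (hdiv : ¬ Summable (fun q : ℕ => wt ψ q / max 1 (Real.log (Real.log q)) ^ ε)) :
    volume (approxSet γ ψ)ᶜ = 0 := by
  refine weakDS_lossW (ε / 2) (by linarith) γ ψ hψ fun hs => hdiv ?_
  have h3 : (1 : ℝ) ≤ 3 ^ (ε / 2) := Real.one_le_rpow (by norm_num) (by linarith)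
  refine Summable.of_nonneg_of_le (fun q => div_nonneg (BilinearAux.wt_nonneg hψ q)
    (Real.rpow_nonneg (zero_le_one.trans (le_max_left _ _)) _)) (fun q => ?_)
    (hs.mul_left ((3 : ℝ) ^ (ε / 2)))
  set L := max 1 (Real.log (Real.log q)) with hL
  have hL1 : 1 ≤ L := le_max_left _ _
  have hw := BilinearAux.wt_nonneg hψ q
  have hLε : 1 ≤ L ^ ε := Real.one_le_rpow hL1 hε.le
  rw [lossW]
  split_ifs with h
  · calc wt ψ q / L ^ ε ≤ wt ψ q := div_le_self hw hLε
      _ ≤ 3 ^ (ε / 2) * (wt ψ q * 1) := by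
          rw [mul_one]
          exact le_mul_of_one_le_left hw h3
  · rw [not_le] at h
    have hψ0 : 0 < ψ q := (Real.exp_pos _).trans h
    have h1 : Real.log (2 + 1 / ψ q) ≤ 3 * L ^ 2 := by
      rw [Real.log_le_iff_le_exp (by positivity)]
      have hl : Real.log (Real.log q) ^ 2 ≤ L ^ 2 := by
        rw [sq_le_sq, abs_of_pos (show (0 : ℝ) < L by linarith), abs_le]
        exact ⟨by linarith [neg_log_log_le q], le_max_right _ _⟩
      have h2 : 1 / ψ q ≤ Real.exp (L ^ 2) := by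
        have := one_div_le_one_div_of_le (Real.exp_pos _) h.le
        rw [Real.exp_neg, one_div, one_div, inv_inv] at this
        rw [one_div]
        exact this.trans (Real.exp_le_exp.2 hl)
      have e3 : Real.exp (3 * L ^ 2) = Real.exp (L ^ 2) * Real.exp (2 * L ^ 2) := by
        rw [← Real.exp_add]; ring_nf
      have e4 : (3 : ℝ) ≤ Real.exp (2 * L ^ 2) := by
        refine le_trans ?_ (Real.add_one_le_exp _)
        nlinarith
      have e5 : 1 ≤ Real.exp (L ^ 2) := Real.one_le_exp (sq_nonneg _)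
      rw [e3]
      nlinarith
    have h0 : 0 < Real.log (2 + 1 / ψ q) := Real.log_pos (by
      have : 0 < 1 / ψ q := by positivity
      linarith)
    calc wt ψ q / L ^ ε = 3 ^ (ε / 2) * (wt ψ q / (3 * L ^ 2) ^ (ε / 2)) := by
          rw [Real.mul_rpow (by norm_num) (sq_nonneg L), ← Real.rpow_two,
            ← Real.rpow_mul (by linarith), show (2 : ℝ) * (ε / 2) = ε by ring]
          field_simp
      _ ≤ _ := by
          rw [← div_eq_mul_inv]
          exact mul_le_mul_of_nonneg_left (div_le_div_of_nonneg_left hw (Real.rpow_pos_of_pos h0 _)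
            (Real.rpow_le_rpow h0.le h1 (by linarith))) (by positivity)

end Vale.Agent.P028.W1
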