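import Vale.Agent.P028.Full.Bil
import Vale.Agent.P028.Bilinear

/-!
The pairs of level at most `x` weigh `x ^ (1 - δ)`, with the factor `hFac`.
-/

noncomputable section

namespace Vale.Agent.P028.W1

open Finset Full

theorem wt_nonneg' {ψ : ℕ → ℝ} (hψ : ∀ q, 0 ≤ ψ q) (q : ℕ) : 0 ≤ wt ψ q :=
  mul_nonneg (by positivity) (hψ q)

/-- The weight of the pairs of level at most `x`. -/
theorem exists_pairs_weight_le (ξ : ℝ) (hξ : 0 < ξ) (hξ1 : ξ ≤ 1 / 100) :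
    ∃ C : ℝ, 0 ≤ C ∧ ∀ (ψ : ℕ → ℝ) (S : Finset ℕ) (x : ℝ), (∀ q ∈ S, 0 < q) → (∀ q, 0 ≤ ψ q) →
      mass ψ S ≤ 2 → 0 < x →
      ∑ q ∈ S, ∑ r ∈ S.filter (fun r => dist2 ψ q r ≤ x), wt ψ q * wt ψ r ≤ C * x ^ (1 - ξ) := by
  obtain ⟨C, hC⟩ := exists_bilinear_le ξ hξ hξ1
  refine ⟨max C 0 * massFac ξ 2 2, mul_nonneg (le_max_right _ _) ?_, ?_⟩
  · simp only [massFac]
    positivity
  intro ψ S x hS hψ hm hx
  obtain ⟨p, hp1, hp⟩ := Nat.exists_infinite_primes (S.sup id + 1)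
  have hz : ∀ v ∈ S, 0 < v ∧ v.factorization p = 0 := by
    intro v hv
    have := Finset.le_sup (f := id) hv
    simp only [id] at this
    exact ⟨hS v hv, Nat.factorization_eq_zero_of_lt (by omega)⟩
  have h := hC ψ ψ S S x p 0 0 hx hp hz hz hψ hψ
  simp only [Nat.dist_self, Nat.cast_zero, mul_zero, neg_zero, Real.rpow_zero, mul_one] at h
  have hm0 : 0 ≤ mass ψ S := sum_nonneg fun q _ => wt_nonneg' hψ q
  refine le_trans h ?_
  have e : massFac ξ (mass ψ S) (mass ψ S) ≤ massFac ξ 2 2 := by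
    simp only [massFac]
    have hθ : 0 ≤ thetaX ξ := by rw [thetaX]; linarith
    exact mul_le_mul (Real.rpow_le_rpow (by linarith) (by linarith) (by linarith))
      (Real.rpow_le_rpow (by positivity) (mul_le_mul hm hm hm0 (by norm_num)) hθ)
      (by positivity) (by positivity)
  calc C * x ^ (1 - ξ) * massFac ξ (mass ψ S) (mass ψ S)
      ≤ max C 0 * x ^ (1 - ξ) * massFac ξ (mass ψ S) (mass ψ S) :=
        mul_le_mul_of_nonneg_right (mul_le_mul_of_nonneg_right (le_max_left _ _) (by positivity))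
          (by simp only [massFac]; positivity)
    _ ≤ max C 0 * x ^ (1 - ξ) * massFac ξ 2 2 :=
        mul_le_mul_of_nonneg_left e (mul_nonneg (le_max_right _ _) (by positivity))
    _ = _ := by ring

/-- Every moment of `pC` costs an arbitrarily small power of the level. -/
theorem exists_hFac_moment_tiny_le (ξ : ℝ) (hξ : 0 < ξ) (hξ1 : ξ ≤ 1 / 100) (u : ℕ) :
    ∃ C : ℝ, 0 ≤ C ∧ ∀ (ψ : ℕ → ℝ) (S : Finset ℕ) (x : ℝ), (∀ q ∈ S, 0 < q) → (∀ q, 0 ≤ ψ q) →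
      mass ψ S ≤ 2 → 0 < x → x ≤ 1 →
      ∑ q ∈ S, ∑ r ∈ S.filter (fun r => r ≠ q ∧ dist2 ψ q r ≤ x),
        wt ψ q * wt ψ r * hFac 0 (qd q r * qd r q) ^ u ≤ C * x ^ (1 - 3 * ξ / 2) := by
  obtain ⟨C1, hC1, hw⟩ := exists_pairs_weight_le ξ hξ hξ1
  set t : ℕ := ⌈1 / (50 * ξ)⌉₊ + 1 with ht
  have htξ : 7 / 1000 ≤ ((t : ℝ) - 1) * (ξ / 2) := by
    have h1 : 1 / (50 * ξ) ≤ ((t : ℝ) - 1) := by
      rw [ht]; push_cast; rw [add_sub_cancel_right]; exact Nat.le_ceil _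
    calc (7 / 1000 : ℝ) ≤ 1 / (50 * ξ) * (ξ / 2) := by field_simp; norm_num
      _ ≤ _ := mul_le_mul_of_nonneg_right h1 (by linarith)
  obtain ⟨C2, hC2⟩ := exists_moment_le ((u * t : ℕ) : ℝ) (Nat.cast_nonneg _)
  refine ⟨C1 + 6 * max C2 0, by positivity, ?_⟩
  intro ψ S x hS hψ hm hx hx1
  set A : ℝ := x ^ (-(ξ / 2)) with hA
  have hA0 : 0 < A := Real.rpow_pos_of_pos hx _
  have hh : ∀ n, 0 ≤ hFac 0 n := fun n => zero_le_one.trans (BilinearAux.one_le_hFac _ _)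
  have hWW : ∀ q r, 0 ≤ wt ψ q * wt ψ r := fun q r =>
    mul_nonneg (wt_nonneg' hψ q) (wt_nonneg' hψ r)
  have hpt : ∀ h : ℝ, 0 ≤ h → h ^ u ≤ A + (A ^ (t - 1))⁻¹ * h ^ (u * t) := by
    intro h h0
    have hp : 0 ≤ (A ^ (t - 1))⁻¹ * h ^ (u * t) := by positivity
    rcases le_total (h ^ u) A with hle | hle
    · linarith
    · have : h ^ u ≤ (A ^ (t - 1))⁻¹ * h ^ (u * t) := by
        rw [inv_mul_eq_div, le_div_iff₀ (by positivity), pow_mul,
          show (h ^ u) ^ t = h ^ u * (h ^ u) ^ (t - 1) by rw [← pow_succ']; congr 1]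
        exact mul_le_mul_of_nonneg_left (pow_le_pow_left₀ hA0.le hle _) (by positivity)
      linarith
  calc ∑ q ∈ S, ∑ r ∈ S.filter (fun r => r ≠ q ∧ dist2 ψ q r ≤ x),
        wt ψ q * wt ψ r * hFac 0 (qd q r * qd r q) ^ u
      ≤ ∑ q ∈ S, ∑ r ∈ S.filter (fun r => r ≠ q ∧ dist2 ψ q r ≤ x),
          (A * (wt ψ q * wt ψ r) + (A ^ (t - 1))⁻¹ *
            (wt ψ q * wt ψ r * hFac 0 (qd q r * qd r q) ^ (u * t))) := by
        refine sum_le_sum fun q _ => sum_le_sum fun r _ => ?_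
        exact (mul_le_mul_of_nonneg_left (hpt _ (hh _)) (hWW q r)).trans_eq (by ring)
    _ = A * ∑ q ∈ S, ∑ r ∈ S.filter (fun r => r ≠ q ∧ dist2 ψ q r ≤ x), wt ψ q * wt ψ r +
          (A ^ (t - 1))⁻¹ * ∑ q ∈ S, ∑ r ∈ S.filter (fun r => r ≠ q ∧ dist2 ψ q r ≤ x),
            wt ψ q * wt ψ r * hFac 0 (qd q r * qd r q) ^ (u * t) := by
        simp only [mul_sum, sum_add_distrib]
    _ ≤ A * (C1 * x ^ (1 - ξ)) +
          (A ^ (t - 1))⁻¹ * (6 * max C2 0 * x ^ (993 / 1000 : ℝ)) := by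
        refine add_le_add (mul_le_mul_of_nonneg_left ((sum_le_sum fun q _ =>
          sum_le_sum_of_subset_of_nonneg (fun r hr => ?_) fun r _ _ => hWW q r).trans
            (hw ψ S x hS hψ hm hx)) hA0.le) (mul_le_mul_of_nonneg_left ?_ (by positivity))
        · exact mem_filter.2 ⟨(mem_filter.1 hr).1, (mem_filter.1 hr).2.2⟩
        refine (sum_le_sum fun q _ => sum_le_sum_of_subset_of_nonneg (fun r hr => ?_)
          fun r _ _ => mul_nonneg (hWW q r) (pow_nonneg (hh _) _)).trans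
            ((hC2 ψ S x 0 (u * t) hS hψ hx (by simp)).trans ?_)
        · obtain ⟨h1, h2, h3⟩ := mem_filter.1 hr
          exact mem_filter.2 ⟨h1, h2.symm, h3⟩
        · have hm0 : 0 ≤ mass ψ S := sum_nonneg fun q _ => wt_nonneg' hψ q
          refine mul_le_mul_of_nonneg_right ?_ (by positivity)
          calc C2 * (mass ψ S + mass ψ S ^ 2) ≤ max C2 0 * (mass ψ S + mass ψ S ^ 2) :=
                mul_le_mul_of_nonneg_right (le_max_left _ _) (by positivity)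
            _ ≤ max C2 0 * 6 := mul_le_mul_of_nonneg_left (by nlinarith) (le_max_right _ _)
            _ = _ := by ring
    _ ≤ (C1 + 6 * max C2 0) * x ^ (1 - 3 * ξ / 2) := by
        have e1 : A * x ^ (1 - ξ) = x ^ (1 - 3 * ξ / 2) := by
          rw [hA, ← Real.rpow_add hx]; ring_nf
        have e2 : (A ^ (t - 1))⁻¹ * x ^ (993 / 1000 : ℝ) ≤ x ^ (1 - 3 * ξ / 2) := by
          rw [hA, ← Real.rpow_natCast, ← Real.rpow_mul hx.le, ← Real.rpow_neg hx.le,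
            ← Real.rpow_add hx]
          refine Real.rpow_le_rpow_of_exponent_ge hx hx1 ?_
          have : ((t - 1 : ℕ) : ℝ) = (t : ℝ) - 1 := by
            rw [Nat.cast_sub (by omega)]; norm_num
          rw [this]
          linarith
        have := mul_le_mul_of_nonneg_left e2 (show 0 ≤ 6 * max C2 0 by positivity)
        calc _ = C1 * (A * x ^ (1 - ξ)) + 6 * max C2 0 * ((A ^ (t - 1))⁻¹ *
              x ^ (993 / 1000 : ℝ)) := by ring
          _ ≤ C1 * x ^ (1 - 3 * ξ / 2) + 6 * max C2 0 * x ^ (1 - 3 * ξ / 2) := by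
              rw [e1]; linarith
          _ = _ := by ring

/-- Any total weight at least `1`: scale the radii. -/
theorem exists_hFac_level_le (δ : ℝ) (hδ : 0 < δ) (hδ1 : δ ≤ 1 / 100) :
    ∃ C : ℝ, 0 ≤ C ∧ ∀ (ψ : ℕ → ℝ) (S : Finset ℕ) (x : ℝ), (∀ q ∈ S, 0 < q) → (∀ q, 0 ≤ ψ q) →
      1 ≤ mass ψ S → 0 < x → x ≤ 1 →
      ∑ q ∈ S, ∑ r ∈ S.filter (fun r => r ≠ q ∧ dist2 ψ q r ≤ x),
        wt ψ q * wt ψ r * hFac 0 (qd q r * qd r q) ≤
        C * mass ψ S ^ (1 + δ) * x ^ (1 - δ) := by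
  obtain ⟨C, hC0, hC⟩ := exists_hFac_moment_tiny_le (2 * δ / 3) (by linarith) (by linarith) 1
  refine ⟨C, hC0, fun ψ S x hS hψ hμ hx hx1 => ?_⟩
  set μ := mass ψ S with hμd
  have hμ0 : 0 < μ := by linarith
  set ψ' : ℕ → ℝ := fun q => ψ q / μ with hψ'
  have hwt : ∀ q, wt ψ' q = wt ψ q / μ := fun q => by simp only [wt, hψ']; ring
  have hmass : mass ψ' S = 1 := by
    simp only [mass, hwt, ← sum_div]
    rw [← mass, ← hμd, div_self hμ0.ne']
  have hd : ∀ q r, dist2 ψ' q r = dist2 ψ q r / μ := fun q r => by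
    simp only [dist2, hψ']
    rw [← max_div_div_right hμ0.le]
    congr 1 <;> ring
  have h := hC ψ' S (x / μ) hS (fun q => div_nonneg (hψ q) hμ0.le) (by linarith) (by positivity)
    ((div_le_one hμ0).2 (hx1.trans hμ))
  simp only [hd, hwt, div_le_div_iff_of_pos_right hμ0, pow_one] at h
  have e : ∀ q r : ℕ, wt ψ q / μ * (wt ψ r / μ) * hFac 0 (qd q r * qd r q) =
      wt ψ q * wt ψ r * hFac 0 (qd q r * qd r q) / μ ^ 2 := fun q r => by ring
  simp only [e, ← sum_div] at h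
  rw [div_le_iff₀ (by positivity), show 1 - 3 * (2 * δ / 3) / 2 = 1 - δ by ring] at h
  refine h.trans (le_of_eq ?_)
  rw [Real.div_rpow hx.le hμ0.le, show (1 + δ) = 2 - (1 - δ) by ring, Real.rpow_sub hμ0 2 (1 - δ),
    Real.rpow_two]
  ring

end Vale.Agent.P028.W1
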