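import Vale.Agent.P028.W1.Overlap

/-!
Far pairs of one window.
-/

noncomputable section

namespace Vale.Agent.P028.W1

open Finset MeasureTheory BilinearAux T2
open T2.Periodic hiding lineAvg_swap
open scoped Classical

variable {P : Sys}

/-- A coincidence on a common line is killed, unless all primes of the quotients carry weights. -/
theorem coin_same_le {q r : ℕ} {lam0 : ℝ} (h : P.Ok0 lam0) (hqS : q ∈ P.S) (hrS : r ∈ P.S)
    (hne : q ≠ r) (hA : P.A q = P.A r) (hB : P.B q = P.B r) {n : ℤ}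
    (hn : n ∈ nearSet P.γ P.ψ q r)
    (hz : zform2 (P.A q) (P.B q) (P.A r) (P.B r) q r n = 0) :
    (coinSet (P.At q) (P.Bt q) (P.At r) (P.Bt r) q r n).card = 0 ∨
      P.Exc q r ∧
      wConst (P.Bt q) q * wConst (P.Bt r) r *
          (coinSet (P.At q) (P.Bt q) (P.At r) (P.Bt r) q r n).card ≤
        (Nat.gcd q r : ℝ) * ((Nat.totient q : ℝ) / q) ∧
      wConst (P.Bt q) q * wConst (P.Bt r) r *
          (coinSet (P.At q) (P.Bt q) (P.At r) (P.Bt r) q r n).card ≤
        (Nat.gcd q r : ℝ) * ((Nat.totient r : ℝ) / r) := by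
  have hq := h.pos q hqS
  have hr := h.pos r hrS
  have hBpos := (h.short q hqS).B_pos
  have hz1 : zform (P.A q) (P.B q) q r n = 0 := by
    rw [← hA, ← hB, zform2_same] at hz
    exact (mul_eq_zero.1 hz).resolve_left (by exact_mod_cast hBpos.ne')
  rcases (coinSet (P.At q) (P.Bt q) (P.At r) (P.Bt r) q r n).eq_empty_or_nonempty with
    he | ⟨⟨a0, b0⟩, h0⟩
  · exact Or.inl (by simp [he])
  right
  have hab : (qd r q : ℤ) * a0 - (qd q r : ℤ) * b0 = n := (mem_filter.1 h0).2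
  obtain ⟨ha, hb⟩ := mem_product.1 (mem_filter.1 h0).1
  rw [zform_eq (A := P.A q) (B := P.B q) (a0 : ℤ) (b0 : ℤ) hab, sub_eq_zero] at hz1
  have hcop := (h.short q hqS).coprime
  have hnotB : ∀ (p : ℕ) (c : ℤ), p.Prime → (p : ℤ) ∣ c * (P.B q : ℤ) + P.A q → ¬ p ∣ P.B q := by
    intro p c hpp hd hpB
    have h1 : (p : ℤ) ∣ (P.B q : ℤ) := Int.natCast_dvd_natCast.2 hpB
    have h2 : (p : ℤ) ∣ P.A q := (dvd_add_right (h1.mul_left c)).1 hd
    exact (Nat.prime_iff_prime_int.1 hpp).not_isUnit (hcop.isUnit_of_dvd' h2 h1)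
  have hsq : ∀ p ∈ (qd q r).primeFactors, p ≤ P.y q := by
    intro p hp
    by_contra hy
    have hpp := Nat.prime_of_mem_primeFactors hp
    have hd := Nat.dvd_of_mem_primeFactors hp
    have h1 : (p : ℤ) ∣ (qd r q : ℤ) * ((a0 : ℤ) * P.B q + P.A q) := by
      rw [hz1]; exact (Int.natCast_dvd_natCast.2 hd).mul_right _
    have h2 := ((Nat.prime_iff_prime_int.1 hpp).dvd_or_dvd h1).resolve_left
      fun h' => not_dvd_both hpp hq hd (Int.natCast_dvd_natCast.1 h')
    have hBt : ¬ p ∣ P.Bt q := by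
      rw [prime_dvd_Bt_iff P q hpp]
      exact not_or.2 ⟨hnotB p _ hpp h2, hy⟩
    exact delPrimes_Bt P hq hpp ((hd.mul_left _).trans (gcd_mul_qd q r).dvd) hBt ha h2
  have hsr : ∀ p ∈ (qd r q).primeFactors, p ≤ P.y r := by
    intro p hp
    by_contra hy
    have hpp := Nat.prime_of_mem_primeFactors hp
    have hd := Nat.dvd_of_mem_primeFactors hp
    have h1 : (p : ℤ) ∣ (qd q r : ℤ) * ((b0 : ℤ) * P.B q + P.A q) := by
      rw [← hz1]; exact (Int.natCast_dvd_natCast.2 hd).mul_right _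
    have h2 := ((Nat.prime_iff_prime_int.1 hpp).dvd_or_dvd h1).resolve_left
      fun h' => not_dvd_both hpp hq (Int.natCast_dvd_natCast.1 h') hd
    have hnB := hnotB p _ hpp h2
    rw [hB] at hnB
    have hBt : ¬ p ∣ P.Bt r := by
      rw [prime_dvd_Bt_iff P r hpp]
      exact not_or.2 ⟨hnB, hy⟩
    rw [hA, hB] at h2
    exact delPrimes_Bt P hr hpp ((hd.mul_left _).trans (gcd_mul_qd' q r).dvd) hBt hb h2
  refine ⟨⟨hne, hA, hB, ⟨n, hn, ?_⟩, hsq, hsr⟩, ?_, ?_⟩
  · rw [zform_eq (A := P.A q) (B := P.B q) (a0 : ℤ) (b0 : ℤ) hab, hz1, sub_self]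
  · refine (coinSet_card_le hq hr h0 q.primeFactors
      fun p hp => Nat.prime_of_mem_primeFactors hp).trans ?_
    rw [totient_div_eq hq]
    refine mul_le_mul_of_nonneg_left (prod_le_prod
      (fun p hp => lineAvg_nonneg' _ _ _ _ q r (Nat.prime_of_mem_primeFactors hp) _ _)
      fun p hp => ?_) (Nat.cast_nonneg _)
    have hpp := Nat.prime_of_mem_primeFactors hp
    refine lineAvg_le_left hpp _ _ fun hd => ?_
    exact (prime_dvd_Bt_iff P q hpp).2
      (Or.inr (hsq p (mem_primeFactors_of (qd_pos hq) hpp hd)))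
  · refine (coinSet_card_le hq hr h0 r.primeFactors
      fun p hp => Nat.prime_of_mem_primeFactors hp).trans ?_
    rw [totient_div_eq hr]
    refine mul_le_mul_of_nonneg_left (prod_le_prod
      (fun p hp => lineAvg_nonneg' _ _ _ _ q r (Nat.prime_of_mem_primeFactors hp) _ _)
      fun p hp => ?_) (Nat.cast_nonneg _)
    have hpp := Nat.prime_of_mem_primeFactors hp
    rw [lineAvg_swap]
    refine lineAvg_le_left hpp _ _ fun hd => ?_
    exact (prime_dvd_Bt_iff P r hpp).2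
      (Or.inr (hsr p (mem_primeFactors_of (qd_pos hr) hpp hd)))

/-- The periodic bound, given a bound on the coincidence factor above the cut. -/
theorem exists_ov_periodic_le :
    ∃ C lam0 : ℝ, ∀ P : Sys, P.Ok0 lam0 → ∀ q ∈ P.S, ∀ r ∈ P.S, q ≠ r →
      P.A q = P.A r ∧ P.B q = P.B r → 1 / 2 ≤ dist2 P.ψ q r → ∀ M : ℝ, 1 ≤ M →
      (∀ n ∈ nearSet P.γ P.ψ q r, zform2 (P.A q) (P.B q) (P.A r) (P.B r) q r n ≠ 0 →
        P.wF (cutY (dist2 P.ψ q r)) q r n ≤ M) →
      P.ov q r ≤ C * M * (wt P.ψ q * wt P.ψ r) *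
            hFac (cutY (dist2 P.ψ q r)) (qd q r * qd r q) +
          P.excTerm q r := by
  refine ⟨24, 1, fun P h q hqS r hrS hne hAB hD M hM hwF => ?_⟩
  have hq := h.pos q hqS
  have hr := h.pos r hrS
  have hψq := h.psi_pos q hqS
  have hψr := h.psi_pos r hrS
  set D := dist2 P.ψ q r with hDdef
  have hD0 : 0 < D := by linarith
  have hg : (0 : ℝ) < Nat.gcd q r := by exact_mod_cast Nat.gcd_pos_of_pos_left r hq
  have hφq : (0 : ℝ) < Nat.totient q := by exact_mod_cast Nat.totient_pos.2 hq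
  have hφr : (0 : ℝ) < Nat.totient r := by exact_mod_cast Nat.totient_pos.2 hr
  have hqR : (0 : ℝ) < q := by exact_mod_cast hq
  have hrR : (0 : ℝ) < r := by exact_mod_cast hr
  set y0 := cutY D with hy0
  set t : ℤ → ℝ := fun n => wConst (P.Bt q) q * wConst (P.Bt r) r *
    (coinSet (P.At q) (P.Bt q) (P.At r) (P.Bt r) q r n).card with ht
  set K := 2 * (P.ψ q * P.ψ r / (Nat.gcd q r * D)) with hK
  have hK0 : 0 ≤ K := by positivity
  have hov : P.ov q r ≤ K * ∑ n ∈ nearSet P.γ P.ψ q r, t n := by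
    rw [Sys.ov]
    simp only [Sys.bmp]
    exact integral_bump_mul_le_coin (P.At q) (P.Bt q) (P.At r) (P.Bt r) hq hr hψq hψr
  set z : ℤ → Prop := fun n => zform2 (P.A q) (P.B q) (P.A r) (P.B r) q r n = 0 with hz
  -- off the line
  have hgen : K * ∑ n ∈ (nearSet P.γ P.ψ q r).filter (fun n => ¬ z n), t n ≤
      24 * M * (wt P.ψ q * wt P.ψ r) * hFac y0 (qd q r * qd r q) := by
    set T := pairPrimes q r with hT
    set Ts := T.filter (fun p => p ≤ y0) with hTs
    set f : ℤ → ℝ := fun n => ∏ p ∈ Ts,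
      nFac (P.At q) (P.Bt q) (P.At r) (P.Bt r) q r p (n % (p : ℤ)).toNat with hf
    set τl := ∏ p ∈ T.filter (fun p => ¬ p ≤ y0), lwAvg q p * lwAvg r p with hτl
    have hTp : ∀ p ∈ T, p.Prime := fun p hp => prime_of_mem_pairPrimes hp
    have hf0 : ∀ n, 0 ≤ f n := fun n =>
      prod_nonneg fun p hp => nFac_nonneg _ _ _ _ q r (hTp p (mem_filter.1 hp).1) _
    have hτl0 : 0 ≤ τl := prod_nonneg fun p hp =>
      (mul_pos (lwAvg_pos q (hTp p (mem_filter.1 hp).1))
        (lwAvg_pos r (hTp p (mem_filter.1 hp).1))).le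
    set H := hFac y0 (qd q r * qd r q) with hH
    have hH0 : 0 ≤ H := zero_le_one.trans (one_le_hFac _ _)
    have hterm : ∀ n ∈ (nearSet P.γ P.ψ q r).filter (fun n => ¬ z n),
        t n ≤ (Nat.gcd q r : ℝ) * τl * (H * M) * f n := by
      intro n hn
      obtain ⟨hn1, hn2⟩ := mem_filter.1 hn
      refine (Periodic.coin_le P hq hr y0 n).trans ?_
      calc (Nat.gcd q r : ℝ) * (f n * τl) * (H * P.wF y0 q r n)
          ≤ (Nat.gcd q r : ℝ) * (f n * τl) * (H * M) := by
            refine mul_le_mul_of_nonneg_left (mul_le_mul_of_nonneg_left (hwF n hn1 hn2) hH0) ?_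
            exact mul_nonneg hg.le (mul_nonneg (hf0 n) hτl0)
        _ = _ := by ring
    have hsum : ∑ n ∈ nearSet P.γ P.ψ q r, f n ≤ 12 * D * ∏ p ∈ Ts, lwAvg q p * lwAvg r p :=
      Periodic.sum_nearSet_nFac_le _ _ _ _ _ _ q r Ts (fun p hp => hTp p (mem_filter.1 hp).1)
        (fun p hp => (mem_filter.1 hp).2) hD
    have hτ : (∏ p ∈ Ts, lwAvg q p * lwAvg r p) * τl =
        (Nat.totient q : ℝ) / q * ((Nat.totient r : ℝ) / r) := by
      rw [hτl, hTs, prod_filter_mul_prod_filter_not, hT, prod_lwAvg_pairPrimes hq hr]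
    calc K * ∑ n ∈ (nearSet P.γ P.ψ q r).filter (fun n => ¬ z n), t n
        ≤ K * ((Nat.gcd q r : ℝ) * τl * (H * M) *
            (12 * D * ∏ p ∈ Ts, lwAvg q p * lwAvg r p)) := by
          refine mul_le_mul_of_nonneg_left ((sum_le_sum hterm).trans ?_) hK0
          rw [← mul_sum]
          refine mul_le_mul_of_nonneg_left
            ((sum_le_sum_of_subset_of_nonneg (filter_subset _ _) fun n _ _ => hf0 n).trans hsum) ?_
          positivity
      _ = K * ((Nat.gcd q r : ℝ) * (H * M) * (12 * D) *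
            ((∏ p ∈ Ts, lwAvg q p * lwAvg r p) * τl)) := by ring
      _ = _ := by
        rw [hτ, hK, wt, wt]
        field_simp
        ring
  -- on the line
  have hzero : K * ∑ n ∈ (nearSet P.γ P.ψ q r).filter z, t n ≤
      P.excTerm q r := by
    have hone : ∀ c : ℝ, 0 ≤ c → (∀ n ∈ (nearSet P.γ P.ψ q r).filter z, K * t n ≤ c) →
        K * ∑ n ∈ (nearSet P.γ P.ψ q r).filter z, t n ≤ c := by
      intro c hc hle
      rw [mul_sum]
      refine (sum_le_card_nsmul _ _ c hle).trans ?_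
      rw [nsmul_eq_mul]
      refine mul_le_of_le_one_left hc ?_
      exact_mod_cast Periodic.card_zform2_zero_le _ (h.short q hqS).B_pos (h.short r hrS).B_pos q r
    have hexc := excTerm_nonneg h q r
    refine hone _ hexc fun n hn => ?_
    obtain ⟨hn1, hn2⟩ := mem_filter.1 hn
    rcases coin_same_le h hqS hrS hne hAB.1 hAB.2 hn1 hn2 with h0 | ⟨hE, h1, h2⟩
    · simp [ht, h0, hexc]
    · rw [Sys.excTerm, if_pos hE]
      split_ifs with hle
      · refine (mul_le_mul_of_nonneg_left h2 hK0).trans (le_of_eq ?_)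
        rw [hK, wt, ← hDdef]; field_simp
      · refine (mul_le_mul_of_nonneg_left h1 hK0).trans (le_of_eq ?_)
        rw [hK, wt, ← hDdef]; field_simp
  rw [← sum_filter_add_sum_filter_not (nearSet P.γ P.ψ q r) z t, mul_add] at hov
  linarith

/-- Above the cut few primes can coincide: in one window at `D ≥ 1/2`, and between two windows at
`D ≥ exp (√Λ' / 100)`. -/
theorem exists_wF_far_le :
    ∃ C lam0 : ℝ, 1 ≤ C ∧ ∀ P : Sys, P.Ok0 lam0 → ∀ q ∈ P.S, ∀ r ∈ P.S,
      (P.lam q = P.lam r ∧ 1 / 2 ≤ dist2 P.ψ q r ∨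
        Real.exp (Real.sqrt (max (P.lam q) (P.lam r)) / 100) ≤ dist2 P.ψ q r) →
      ∀ n ∈ nearSet P.γ P.ψ q r, zform2 (P.A q) (P.B q) (P.A r) (P.B r) q r n ≠ 0 →
        P.wF (cutY (dist2 P.ψ q r)) q r n ≤ C := by
  obtain ⟨C, hC1, hC⟩ := exists_prod_ratio_le
  refine ⟨C, 40000000000, hC1, fun P h q hqS r hrS hfar n hn hz => ?_⟩
  have hq := h.pos q hqS
  have hr := h.pos r hrS
  have hψq := h.psi_pos q hqS
  have hψr := h.psi_pos r hrS
  have hlq := h.lam_ge q hqS
  have hlr := h.lam_ge r hrS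
  set D := dist2 P.ψ q r with hDdef
  have hD0 : 0 < D := dist2_pos hr hψq
  set y0 := cutY D with hy0
  have hθ : |(n : ℝ) + P.γ * mdiff q r| ≤ 2 * D := (mem_filter.1 hn).2.le
  have hq' : (qd q r : ℝ) ≤ D / P.ψ r := Periodic.qd_le_dist_div q hψr
  have hr' : (qd r q : ℝ) ≤ D / P.ψ q := by
    rw [hDdef, Periodic.dist2_symm]
    exact Periodic.qd_le_dist_div r hψq
  have hlogD := Periodic.log_max_le_cutY D
  have hmaxD : Real.log D ≤ Real.log (max D 1) := Real.log_le_log hD0 (le_max_left _ _)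
  set s := (Nat.gcd q r).primeFactors.filter (fun p => y0 < p ∧ P.y q < p ∧ P.y r < p ∧
    ¬ p ∣ qd q r * qd r q ∧ ¬ p ∣ P.B q ∧ ¬ p ∣ P.B r ∧
    (p : ℤ) ∣ zform2 (P.A q) (P.B q) (P.A r) (P.B r) q r n) with hs
  have hsp : ∀ p ∈ s, p.Prime := fun p hp => Nat.prime_of_mem_primeFactors (mem_filter.1 hp).1
  show ∏ p ∈ s, ratio p ≤ C
  by_cases hlam : P.lam q = P.lam r
  · obtain ⟨hA, hB⟩ := h.const q hqS r hrS hlam
    set P0 := max y0 (max (P.y q) (P.y r)) with hP0
    refine hC P0 s (fun p hp => ⟨hsp p hp, ?_⟩) ?_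
    · obtain ⟨-, h1, h2, h3, -⟩ := mem_filter.1 hp
      exact max_lt h1 (max_lt h2 h3)
    rw [← hA, ← hB, Periodic.zform2_same] at hz
    have hBpos := (h.short q hqS).B_pos
    set Z := zform (P.A q) (P.B q) q r n with hZdef
    have hZ : Z ≠ 0 := fun e => hz (by rw [e, mul_zero])
    have hdvd : ∀ p ∈ s, p.Prime ∧ (p : ℤ) ∣ Z := fun p hp => by
      obtain ⟨-, -, -, -, -, h5, -, h7⟩ := mem_filter.1 hp
      rw [← hA, ← hB, Periodic.zform2_same] at h7
      exact ⟨hsp p hp, ((Nat.prime_iff_prime_int.1 (hsp p hp)).dvd_or_dvd h7).resolve_left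
        fun h' => h5 (Int.natCast_dvd_natCast.1 h')⟩
    have hb1 := Periodic.le_exp_y_sq P hψq
    have hb2 := Periodic.le_exp_y_sq P hψr
    rw [← hA, ← hB] at hb2
    set d := |(P.B q : ℝ) * P.γ - P.A q| with hd
    have hy2 : ∀ k : ℕ, k ≤ P0 → Real.exp ((k : ℝ) ^ 2) ≤ Real.exp ((P0 : ℝ) ^ 2) := fun k hk =>
      Real.exp_le_exp.2 (by gcongr)
    have hZle : |(Z : ℝ)| ≤ 2 * D * Real.exp ((P0 : ℝ) ^ 2) := by
      have eZ : (Z : ℝ) = ((n : ℝ) + P.γ * mdiff q r) * P.B q +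
          (qd r q : ℝ) * (P.A q - (P.B q : ℝ) * P.γ) -
          (qd q r : ℝ) * (P.A q - (P.B q : ℝ) * P.γ) := by
        simp only [hZdef, zform, mdiff]
        push_cast
        ring
      have hd' : |(P.A q : ℝ) - (P.B q : ℝ) * P.γ| = d := abs_sub_comm _ _
      rw [eZ]
      refine (abs_sub _ _).trans ((add_le_add (abs_add_le _ _) le_rfl).trans ?_)
      rw [abs_mul, abs_mul, abs_mul, hd', Nat.abs_cast, Nat.abs_cast, Nat.abs_cast]
      have t1 : |(n : ℝ) + P.γ * mdiff q r| * P.B q ≤ 2 * D * P.B q :=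
        mul_le_mul_of_nonneg_right hθ (Nat.cast_nonneg _)
      have t2 : (qd r q : ℝ) * d ≤ D * (d / P.ψ q) :=
        (mul_le_mul_of_nonneg_right hr' (abs_nonneg _)).trans (le_of_eq (by ring))
      have t3 : (qd q r : ℝ) * d ≤ D * (d / P.ψ r) :=
        (mul_le_mul_of_nonneg_right hq' (abs_nonneg _)).trans (le_of_eq (by ring))
      have u1 : D * ((P.B q : ℝ) + d / P.ψ q) ≤ D * Real.exp ((P0 : ℝ) ^ 2) :=
        mul_le_mul_of_nonneg_left
          (hb1.trans (hy2 _ ((le_max_left _ _).trans (le_max_right _ _)))) hD0.le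
      have u2 : D * ((P.B q : ℝ) + d / P.ψ r) ≤ D * Real.exp ((P0 : ℝ) ^ 2) :=
        mul_le_mul_of_nonneg_left
          (hb2.trans (hy2 _ ((le_max_right _ _).trans (le_max_right _ _)))) hD0.le
      linarith
    have hlogZ : Real.log |(Z : ℝ)| ≤ 1 + 2 * ((P0 : ℝ) + 1) + (P0 : ℝ) ^ 2 := by
      refine (Real.log_le_log (abs_pos.2 (by exact_mod_cast hZ)) hZle).trans ?_
      rw [Real.log_mul (by positivity) (Real.exp_pos _).ne', Real.log_exp,
        Real.log_mul (by norm_num) hD0.ne']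
      have : (y0 : ℝ) ≤ P0 := by exact_mod_cast le_max_left _ _
      linarith [Real.log_two_lt_d9]
    have h0 : (0 : ℝ) ≤ P0 := Nat.cast_nonneg _
    refine (Periodic.card_primes_dvd_le hZ s hdvd).trans ?_
    nlinarith [mul_nonneg h0 h0, pow_nonneg h0 3, pow_nonneg h0 4]
  · have hfar' : Real.exp (Real.sqrt (max (P.lam q) (P.lam r)) / 100) ≤ D :=
      hfar.resolve_left fun h' => hlam h'.1
    refine hC y0 s (fun p hp => ⟨hsp p hp, (mem_filter.1 hp).2.1⟩) ?_
    set L := max (P.lam q) (P.lam r) with hL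
    have hL0 : 40000000000 ≤ L := hlq.trans (le_max_left _ _)
    have hsL : 200000 ≤ Real.sqrt L := by
      rw [Real.le_sqrt (by norm_num) (by linarith)]
      linarith
    have hsmall : Real.sqrt L / 100 ≤ 2 * ((y0 : ℝ) + 1) := by
      have := Real.log_le_log (Real.exp_pos _) hfar'
      rw [Real.log_exp] at this
      linarith
    have hLy : L ≤ 40000 * ((y0 : ℝ) + 1) ^ 2 := by
      have := Real.mul_self_sqrt (by linarith : (0 : ℝ) ≤ L)
      nlinarith [Real.sqrt_nonneg L]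
    set Z := zform2 (P.A q) (P.B q) (P.A r) (P.B r) q r n with hZdef
    have hdvd : ∀ p ∈ s, p.Prime ∧ (p : ℤ) ∣ Z := fun p hp => by
      obtain ⟨-, -, -, -, -, -, -, h7⟩ := mem_filter.1 hp
      exact ⟨hsp p hp, h7⟩
    have hB1 : ∀ v ∈ P.S, (P.B v : ℝ) ≤ Real.exp (rhoC * P.lam v / 2) ∧
        |(P.A v : ℝ) - (P.B v : ℝ) * P.γ| ≤ Real.exp (-(rhoC * P.lam v / 2)) := fun v hv => by
      rw [abs_sub_comm]
      exact shortVec_bounds (h.short v hv)
    obtain ⟨bq, dq⟩ := hB1 q hqS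
    obtain ⟨br, dr⟩ := hB1 r hrS
    have hinv : ∀ v ∈ P.S, D / P.ψ v ≤ D * Real.exp (rhoC * P.lam v) := fun v hv => by
      rw [div_le_iff₀ (h.psi_pos v hv), mul_assoc]
      refine le_mul_of_one_le_right hD0.le ?_
      have := mul_le_mul_of_nonneg_left (h.le_psi v hv) (Real.exp_pos (rhoC * P.lam v)).le
      rwa [← Real.exp_add, add_neg_cancel, Real.exp_zero] at this
    set E := Real.exp (rhoC * (P.lam q + P.lam r) / 2) with hE
    have hZle : |(Z : ℝ)| ≤ 4 * D * E := by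
      have eZ : (Z : ℝ) = ((n : ℝ) + P.γ * mdiff q r) * (P.B q * P.B r) +
          (qd r q : ℝ) * P.B r * (P.A q - (P.B q : ℝ) * P.γ) -
          (qd q r : ℝ) * P.B q * (P.A r - (P.B r : ℝ) * P.γ) := by
        simp only [hZdef, zform2, mdiff]
        push_cast
        ring
      rw [eZ]
      refine (abs_sub _ _).trans ((add_le_add (abs_add_le _ _) le_rfl).trans ?_)
      simp only [abs_mul, Nat.abs_cast]
      have t1 : |(n : ℝ) + P.γ * mdiff q r| * ((P.B q : ℝ) * P.B r) ≤ 2 * D * E := by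
        refine mul_le_mul hθ ?_ (by positivity) (by linarith)
        refine (mul_le_mul bq br (Nat.cast_nonneg _) (Real.exp_pos _).le).trans (le_of_eq ?_)
        rw [← Real.exp_add, hE]
        congr 1
        ring
      have t2 : (qd r q : ℝ) * P.B r * |(P.A q : ℝ) - (P.B q : ℝ) * P.γ| ≤ D * E := by
        refine (mul_le_mul (mul_le_mul (hr'.trans (hinv q hqS)) br (Nat.cast_nonneg _)
          (by positivity)) dq (abs_nonneg _) (by positivity)).trans (le_of_eq ?_)
        rw [hE, mul_assoc, mul_assoc, ← Real.exp_add, ← Real.exp_add]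
        congr 2
        ring
      have t3 : (qd q r : ℝ) * P.B q * |(P.A r : ℝ) - (P.B r : ℝ) * P.γ| ≤ D * E := by
        refine (mul_le_mul (mul_le_mul (hq'.trans (hinv r hrS)) bq (Nat.cast_nonneg _)
          (by positivity)) dr (abs_nonneg _) (by positivity)).trans (le_of_eq ?_)
        rw [hE, mul_assoc, mul_assoc, ← Real.exp_add, ← Real.exp_add]
        congr 2
        ring
      linarith
    have hlogZ : Real.log |(Z : ℝ)| ≤ 3 + 2 * ((y0 : ℝ) + 1) + 2 * L := by
      refine (Real.log_le_log (abs_pos.2 (by exact_mod_cast hz)) hZle).trans ?_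
      rw [hE, Real.log_mul (by positivity) (Real.exp_pos _).ne', Real.log_exp,
        Real.log_mul (by norm_num) hD0.ne']
      have h4 : Real.log 4 ≤ 3 := by
        have := Real.log_le_sub_one_of_pos (by norm_num : (0 : ℝ) < 4)
        linarith
      have : rhoC * (P.lam q + P.lam r) / 2 ≤ 2 * L := by
        have := le_max_left (P.lam q) (P.lam r)
        have := le_max_right (P.lam q) (P.lam r)
        rw [rhoC]
        linarith
      linarith
    have hw : (1000 : ℝ) ≤ (y0 : ℝ) + 1 := by linarith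
    refine (Periodic.card_primes_dvd_le hz s hdvd).trans ?_
    have hw2 : (1000000 : ℝ) ≤ ((y0 : ℝ) + 1) ^ 2 := by nlinarith
    have h4 : 1000000 * ((y0 : ℝ) + 1) ^ 2 ≤ ((y0 : ℝ) + 1) ^ 4 := by nlinarith
    have h5 : ((y0 : ℝ) + 1) ^ 4 ≤ ((y0 : ℝ) + 2) ^ 4 :=
      pow_le_pow_left₀ (by linarith) (by linarith) 4
    nlinarith

/-- Far pairs are quasi-independent up to the tail of the quotients. -/
theorem exists_ov_far_le :
    ∃ C lam0 : ℝ, ∀ P : Sys, P.Ok0 lam0 → ∀ q ∈ P.S, ∀ r ∈ P.S, q ≠ r →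
      P.lam q = P.lam r → 1 / 2 ≤ dist2 P.ψ q r →
      P.ov q r ≤ C * (wt P.ψ q * wt P.ψ r) * hFac (cutY (dist2 P.ψ q r)) (qd q r * qd r q) +
        P.excTerm q r := by
  obtain ⟨Cw, l1, hCw1, hwF⟩ := exists_wF_far_le
  obtain ⟨C, l2, hov⟩ := exists_ov_periodic_le
  refine ⟨C * Cw, max l1 l2, fun P h q hqS r hrS hne hlam hD => ?_⟩
  exact hov P (ok_mono h (le_max_right _ _)) q hqS r hrS hne (h.const q hqS r hrS hlam) hD Cw hCw1
    (hwF P (ok_mono h (le_max_left _ _)) q hqS r hrS (.inl ⟨hlam, hD⟩))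

end Vale.Agent.P028.W1
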