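import Vale.Agent.P028.W1.Level
import Vale.Agent.P028.W1.Band
import Vale.Agent.P028.W1.Periodic
import Vale.Agent.P028.W1.Exc
import Vale.Agent.P028.W1.Moment
import Vale.Agent.P028.T2.Large

/-!
The second moment of one window whose total weight is at least a power of the window parameter.
-/

noncomputable section

namespace Vale.Agent.P028.W1

open Finset T2
open scoped Classical

/-- The factor of the quotients of a close pair of one window. -/
theorem exists_hFac_le :
    ∃ C : ℝ, ∀ P : Sys, P.Ok0 1 → ∀ q ∈ P.S, ∀ r ∈ P.S, ∀ Λ : ℝ, P.lam q = Λ → P.lam r = Λ →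
      dist2 P.ψ q r ≤ 1 → hFac 0 (qd q r * qd r q) ≤ C * Λ ^ 2 := by
  obtain ⟨C, hC⟩ := exists_div_totient_le
  refine ⟨25 * max C 0, fun P hP q hq r hr Λ hlq hlr hD => ?_⟩
  have hΛ : 1 ≤ Λ := hlq ▸ hP.lam_ge q hq
  have key : ∀ v w : ℕ, w ∈ P.S → P.lam w = Λ → P.ψ w * (qd v w : ℝ) ≤ 1 →
      (qd v w : ℝ) ≤ Real.exp (2 * Λ) := by
    intro v w hw hl h
    have h1 := (mul_le_mul_of_nonneg_right (hl ▸ hP.le_psi w hw) (Nat.cast_nonneg _)).trans h
    rw [Real.exp_neg, inv_mul_le_iff₀ (Real.exp_pos _), mul_one] at h1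
    exact h1.trans (Real.exp_le_exp.2 (mul_le_mul_of_nonneg_right (by norm_num [rhoC])
      (by linarith)))
  have h1 := key q r hr hlr ((le_max_right _ _).trans hD)
  have h2 := key r q hq hlq ((le_max_left _ _).trans hD)
  set n := qd q r * qd r q with hn
  have hn0 : 0 < n := Nat.mul_pos (BilinearAux.qd_pos (hP.pos q hq))
    (BilinearAux.qd_pos (hP.pos r hr))
  have hn1 : (n : ℝ) ≤ Real.exp (4 * Λ) := by
    rw [show 4 * Λ = 2 * Λ + 2 * Λ by ring, Real.exp_add, hn]
    push_cast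
    exact mul_le_mul h1 h2 (Nat.cast_nonneg _) (Real.exp_pos _).le
  have hlog : Real.log n ≤ 4 * Λ :=
    (Real.log_le_iff_le_exp (by exact_mod_cast hn0)).2 hn1
  have hlog0 : 0 ≤ Real.log n := Real.log_natCast_nonneg n
  have hll : Real.log (1 + Real.log n) ≤ Real.log n := by
    have := Real.log_le_sub_one_of_pos (show 0 < 1 + Real.log n by linarith)
    linarith
  have hll0 : 0 ≤ Real.log (1 + Real.log n) := Real.log_nonneg (by linarith)
  have e : hFac 0 n = (n : ℝ) / Nat.totient n := by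
    rw [div_totient_eq_prod n hn0, hFac, filter_true_of_mem]
    exact fun p hp => (Nat.prime_of_mem_primeFactors hp).pos
  rw [e]
  calc (n : ℝ) / Nat.totient n ≤ C * (1 + Real.log (1 + Real.log n)) ^ 2 := hC n hn0
    _ ≤ max C 0 * (5 * Λ) ^ 2 := mul_le_mul (le_max_left _ _)
        (pow_le_pow_left₀ (by linarith) (by linarith) 2) (by positivity) (le_max_right _ _)
    _ = _ := by ring

/-- The levels above a threshold sum geometrically. -/
theorem sum_level_neg_le {xl δ a : ℝ} (hxl : 0 < xl) (hδ : 0 < δ) (ha : 0 < a) (T : Finset ℕ)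
    (hT : ∀ k ∈ T, a ≤ xl * 2 ^ k) :
    ∑ k ∈ T, (xl * 2 ^ k) ^ (-δ) ≤ a ^ (-δ) / (1 - (2 : ℝ) ^ (-δ)) := by
  set ρ : ℝ := (2 : ℝ) ^ (-δ) with hρ
  have hρ1 : ρ < 1 := Real.rpow_lt_one_of_one_lt_of_neg one_lt_two (by linarith)
  have hρ0 : 0 ≤ ρ := by positivity
  rcases T.eq_empty_or_nonempty with rfl | hne
  · rw [sum_empty]; exact div_nonneg (by positivity) (by linarith)
  set k0 := T.min' hne with hk0
  calc ∑ k ∈ T, (xl * 2 ^ k) ^ (-δ) ≤ ∑ k ∈ T, a ^ (-δ) * ρ ^ (k - k0) := by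
        refine sum_le_sum fun k hk => ?_
        obtain ⟨j, hj⟩ := Nat.exists_eq_add_of_le (show k0 ≤ k from T.min'_le k hk)
        rw [hj, add_tsub_cancel_left, pow_add, ← mul_assoc,
          Real.mul_rpow (by positivity) (by positivity)]
        refine mul_le_mul (Real.rpow_le_rpow_of_nonpos ha (hT k0 (T.min'_mem hne)) (by linarith))
          (le_of_eq ?_) (by positivity) (by positivity)
        rw [hρ, ← Real.rpow_natCast, ← Real.rpow_mul zero_le_two, mul_comm,
          Real.rpow_mul zero_le_two, Real.rpow_natCast]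
    _ = a ^ (-δ) * ∑ j ∈ T.image (fun k => k - k0), ρ ^ j := by
        rw [mul_sum, sum_image]
        intro x hx y hy h
        have := T.min'_le x hx
        have := T.min'_le y hy
        simp only at h
        omega
    _ ≤ a ^ (-δ) * (1 - ρ)⁻¹ := mul_le_mul_of_nonneg_left (by
        rw [← tsum_geometric_of_lt_one hρ0 hρ1]
        exact (summable_geometric_of_lt_one hρ0 hρ1).sum_le_tsum _ fun j _ => pow_nonneg hρ0 j)
        (by positivity)
    _ = _ := (div_eq_mul_inv _ _).symm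

/-- One window. -/
theorem exists_oneWindow_le (δ : ℝ) (hδ : 0 < δ) (hδ1 : δ ≤ 1 / 100) :
    ∃ C lam0 : ℝ, 0 ≤ C ∧ ∀ P : Sys, P.Ok0 lam0 → ∀ S : Finset ℕ, S ⊆ P.S →
      ∀ Λ : ℝ, (∀ q ∈ S, P.lam q = Λ) → 1 ≤ mass P.ψ S →
      ∑ v ∈ S, ∑ w ∈ S.filter (fun w => v ≠ w ∧ dist2 P.ψ v w < 1 / 2), P.gTerm v w ≤
        C * (mass P.ψ S + mass P.ψ S ^ 2 + mass P.ψ S ^ (1 + δ) * Λ ^ (levC * δ)) := by
  obtain ⟨C0, l0, hsame⟩ := exists_gTerm_same_le
  obtain ⟨Cf, hfac⟩ := exists_hFac_le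
  set l1 : ℝ := 1
  obtain ⟨Cd, hCd, hlarge⟩ := exists_hFac_level_le δ hδ hδ1
  set ρ : ℝ := (2 : ℝ) ^ (-δ) with hρd
  have hρ1 : ρ < 1 := Real.rpow_lt_one_of_one_lt_of_neg one_lt_two (by linarith)
  obtain ⟨Cb, l2, hband⟩ := exists_band_le
  obtain ⟨Cl, l3, x3, hx3, hCl, hlev⟩ := exists_sameLevel_le
  obtain ⟨Cm, hmom⟩ := exists_moment_le 1 zero_le_one
  set x0 : ℝ := min x3 (1 / 2) with hx0d
  have hx0 : 0 < x0 := lt_min hx3 (by norm_num)
  set e : ℝ := 3 / 100000000 with he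
  set r : ℝ := (2 : ℝ) ^ e with hr
  have hr1 : 1 < r := Real.one_lt_rpow (by norm_num) (by norm_num [he])
  refine ⟨max C0 0 * (max Cf 0 * max Cb 0 * 80000 + max Cm 0 / x0 + Cl * (r / (r - 1)) +
      2 * Cd / (1 - ρ)),
    max 1 (max (max l0 l1) (max l2 l3)), ?_, fun P hP S hS Λ hΛ hμ1 => ?_⟩
  · have : 0 < r - 1 := by linarith
    have : 0 < 1 - ρ := by linarith
    positivity
  rcases S.eq_empty_or_nonempty with hemp | ⟨q0, hq0⟩
  · rw [hemp] at hμ1; norm_num [mass] at hμ1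
  have hmono : ∀ l, l ≤ max 1 (max (max l0 l1) (max l2 l3)) → P.Ok0 l := fun l hl => ok_mono hP hl
  have hP0 : P.Ok0 l0 := hmono _ (by simp)
  have hP1 : P.Ok0 l1 := hmono _ (by simp)
  have hP2 : P.Ok0 l2 := hmono _ (by simp)
  have hP3 : P.Ok0 l3 := hmono _ (by simp)
  have hΛ1 : 1 ≤ Λ := hΛ q0 hq0 ▸ le_trans (le_max_left _ _) (hP.lam_ge q0 (hS hq0))
  set μ2 := mass P.ψ S + mass P.ψ S ^ 2 with hμ2
  have hw : ∀ q, 0 ≤ wt P.ψ q := BilinearAux.wt_nonneg hP.nonneg
  have hμ : 0 ≤ μ2 := by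
    have := BilinearAux.mass_nonneg hP.nonneg S
    positivity
  set xl : ℝ := Real.exp (-(49 / 100 * Λ)) with hxl
  have hxl0 : 0 < xl := Real.exp_pos _
  obtain ⟨N, hN⟩ := pow_unbounded_of_one_lt (x0 / xl) one_lt_two
  set T := (range N).filter (fun k => xl * 2 ^ k ≤ x0) with hT
  -- the three ranges
  set band : ℕ → ℕ → ℝ := fun v w =>
    if v ≠ w ∧ dist2 P.ψ v w ≤ 2 * xl ∧ (P.goodSet v w).Nonempty then
      wt P.ψ v * wt P.ψ w / dist2 P.ψ v w else 0 with hbandd
  set top : ℕ → ℕ → ℝ := fun v w =>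
    if v ≠ w ∧ dist2 P.ψ v w ≤ 1 then
      wt P.ψ v * wt P.ψ w * hFac 0 (qd v w * qd w v) ^ 1 else 0 with htopd
  set lev : ℕ → ℕ → ℕ → ℝ := fun k v w =>
    if v ≠ w ∧ dist2 P.ψ v w ≤ 2 * (xl * 2 ^ k) ∧ (P.goodSet v w).Nonempty then
      hFac 0 (qd v w * qd w v) * (wt P.ψ v * wt P.ψ w) / (xl * 2 ^ k) else 0 with hlevd
  have hpt : ∀ v ∈ S, ∀ w ∈ S, v ≠ w ∧ dist2 P.ψ v w < 1 / 2 →
      P.gTerm v w ≤ max C0 0 * (max Cf 0 * Λ ^ 2 * band v w + top v w / x0 +
        ∑ k ∈ T, lev k v w) := by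
    intro v hv w hw' ⟨hne, hD⟩
    set D := dist2 P.ψ v w with hDd
    have hD0 : 0 < D := lt_max_of_lt_left (mul_pos (hP.psi_pos v (hS hv))
      (Nat.cast_pos.2 (BilinearAux.qd_pos (hP.pos w (hS hw')))))
    set h := hFac 0 (qd v w * qd w v) with hhd
    have hh : 0 ≤ h := le_trans zero_le_one (BilinearAux.one_le_hFac _ _)
    have hF := mul_nonneg (hw v) (hw w)
    have hb0 : 0 ≤ band v w := by
      simp only [hbandd]; split_ifs
      exacts [div_nonneg hF hD0.le, le_rfl]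
    have ht0 : 0 ≤ top v w := by
      simp only [htopd]; split_ifs
      exacts [mul_nonneg hF (pow_nonneg hh _), le_rfl]
    have hl0 : ∀ k, 0 ≤ lev k v w := fun k => by
      simp only [hlevd]; split_ifs
      exacts [div_nonneg (mul_nonneg hh hF) (by positivity), le_rfl]
    have hX : 0 ≤ max Cf 0 * Λ ^ 2 * band v w := by positivity
    have hY : 0 ≤ top v w / x0 := by positivity
    have hZ : 0 ≤ ∑ k ∈ T, lev k v w := sum_nonneg fun k _ => hl0 k
    refine (hsame P hP0 v (hS hv) w (hS hw') (by rw [hΛ v hv, hΛ w hw']) hD).trans ?_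
    split_ifs with hne'
    swap
    · exact mul_nonneg (le_max_right _ _) (add_nonneg (add_nonneg hX hY) hZ)
    rw [← hDd, ← hhd]
    refine le_trans (le_of_eq (mul_assoc _ _ _)) (mul_le_mul (le_max_left _ _) ?_
      (mul_nonneg hh (div_nonneg hF hD0.le)) (le_max_right _ _))
    rcases le_or_gt D (2 * xl) with hlow | hmid
    · have hb : band v w = wt P.ψ v * wt P.ψ w / D := if_pos ⟨hne, hlow, hne'⟩
      have hhΛ : h ≤ max Cf 0 * Λ ^ 2 := (hfac P hP1 v (hS hv) w (hS hw') Λ (hΛ v hv) (hΛ w hw')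
        (by linarith)).trans (mul_le_mul_of_nonneg_right (le_max_left _ _) (sq_nonneg _))
      have := mul_le_mul_of_nonneg_right hhΛ (div_nonneg hF hD0.le)
      rw [← hb] at this ⊢
      linarith
    rcases le_or_gt D x0 with hlev' | hhigh
    · have hex : ∃ k, D ≤ xl * 2 ^ k := by
        refine ⟨N, hlev'.trans ?_⟩
        have := (div_lt_iff₀ hxl0).1 hN
        linarith
      have hs := Nat.find_spec hex
      have hmin := @Nat.find_min _ _ hex
      have hle : Nat.find hex ≤ N := Nat.find_min' hex (by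
        have := (div_lt_iff₀ hxl0).1 hN
        linarith)
      obtain ⟨k, hk⟩ : ∃ k, Nat.find hex = k + 1 := by
        refine Nat.exists_eq_succ_of_ne_zero fun h0 => ?_
        rw [h0] at hs
        linarith
      rw [hk, pow_succ] at hs
      have hlo : xl * 2 ^ k < D := not_le.1 (hmin (by omega))
      have hkT : k ∈ T := mem_filter.2 ⟨mem_range.2 (by omega), by linarith⟩
      have hl : lev k v w = h * (wt P.ψ v * wt P.ψ w) / (xl * 2 ^ k) :=
        if_pos ⟨hne, by linarith, hne'⟩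
      have h1 := single_le_sum (f := fun k => lev k v w) (fun k _ => hl0 k) hkT
      simp only [hl] at h1
      have h2 : h * (wt P.ψ v * wt P.ψ w / D) ≤ h * (wt P.ψ v * wt P.ψ w) / (xl * 2 ^ k) := by
        rw [← mul_div_assoc]
        exact div_le_div_of_nonneg_left (mul_nonneg hh hF) (by positivity) hlo.le
      linarith
    · have ht : top v w = wt P.ψ v * wt P.ψ w * h ^ 1 := if_pos ⟨hne, by linarith⟩
      have h2 : h * (wt P.ψ v * wt P.ψ w / D) ≤ top v w / x0 := by
        rw [ht, pow_one, mul_comm _ h, ← mul_div_assoc]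
        exact div_le_div_of_nonneg_left (mul_nonneg hh hF) hx0 hhigh.le
      linarith
  -- the sums
  have hb := hband P hP2 S hS Λ hΛ
  have hm := hmom P.ψ S 1 0 1 (fun q hq => hP.pos q (hS hq)) hP.nonneg one_pos (by norm_num)
  rw [Real.one_rpow, mul_one] at hm
  set μ := mass P.ψ S with hμdef
  set lv : ℝ := Λ ^ (-levC) with hlv
  have hlv0 : 0 < lv := Real.rpow_pos_of_pos (by linarith) _
  have hμδ : 0 ≤ 2 * Cd * μ ^ (1 + δ) := by positivity
  have hl : ∀ k ∈ T, ∑ v ∈ S, ∑ w ∈ S, lev k v w ≤ Cl * μ2 * (xl ^ e * r ^ k) +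
      (if lv ≤ xl * 2 ^ k then 2 * Cd * μ ^ (1 + δ) * (xl * 2 ^ k) ^ (-δ) else 0) := by
    intro k hk
    have hk' := (mem_filter.1 hk).2
    set x : ℝ := xl * 2 ^ k with hxd
    have hx : 0 < x := by positivity
    have hn0 : 0 ≤ Cl * μ2 * (xl ^ e * r ^ k) := by positivity
    by_cases hxlv : lv ≤ x
    · rw [if_pos hxlv]
      refine le_trans ?_ (le_add_of_nonneg_left hn0)
      have h1 := hlarge P.ψ S (2 * x) (fun q hq => hP.pos q (hS hq)) hP.nonneg hμ1 (by positivity)
        (by linarith [hk'.trans (min_le_right _ _)])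
      calc ∑ v ∈ S, ∑ w ∈ S, lev k v w
          ≤ (∑ v ∈ S, ∑ w ∈ S.filter (fun w => w ≠ v ∧ dist2 P.ψ v w ≤ 2 * x),
              wt P.ψ v * wt P.ψ w * hFac 0 (qd v w * qd w v)) / x := by
            simp only [sum_div]
            refine sum_le_sum fun v _ => ?_
            rw [sum_filter]
            refine sum_le_sum fun w _ => ?_
            simp only [hlevd, ← hxd]
            split_ifs with h1 h2 h3
            · exact le_of_eq (by ring)
            · exact absurd ⟨h1.1.symm, h1.2.1⟩ h2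
            · exact div_nonneg (mul_nonneg (mul_nonneg (hw v) (hw w))
                (zero_le_one.trans (BilinearAux.one_le_hFac _ _))) hx.le
            · exact le_rfl
        _ ≤ Cd * μ ^ (1 + δ) * (2 * x) ^ (1 - δ) / x :=
            div_le_div_of_nonneg_right h1 hx.le
        _ ≤ Cd * μ ^ (1 + δ) * (2 * x ^ (1 - δ)) / x := by
            refine div_le_div_of_nonneg_right (mul_le_mul_of_nonneg_left ?_ (by positivity)) hx.le
            rw [Real.mul_rpow zero_le_two hx.le]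
            exact mul_le_mul_of_nonneg_right (Real.rpow_le_self_of_one_le one_le_two (by linarith))
              (by positivity)
        _ = _ := by
            rw [show (1 - δ) = -δ + 1 by ring, Real.rpow_add_one hx.ne']
            field_simp
    rw [if_neg hxlv, add_zero]
    have h1 := hlev P hP3 S hS Λ hΛ x
      (le_mul_of_one_le_right hxl0.le (one_le_pow₀ one_le_two))
      (hk'.trans (min_le_left _ _)) (not_le.1 hxlv).le
    simp only [hlevd, ← sum_filter, ← hxd]
    refine h1.trans (le_of_eq ?_)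
    rw [hxd, Real.mul_rpow hxl0.le (by positivity), hr, ← Real.rpow_natCast 2 k,
      ← Real.rpow_mul zero_le_two, ← Real.rpow_natCast ((2 : ℝ) ^ e) k,
      ← Real.rpow_mul zero_le_two, mul_comm (k : ℝ)]
  have hgeoδ : ∑ k ∈ T, (if lv ≤ xl * 2 ^ k then 2 * Cd * μ ^ (1 + δ) * (xl * 2 ^ k) ^ (-δ) else 0)
      ≤ 2 * Cd / (1 - ρ) * (μ ^ (1 + δ) * Λ ^ (levC * δ)) := by
    rw [← sum_filter, ← mul_sum]
    refine (mul_le_mul_of_nonneg_left (sum_level_neg_le hxl0 hδ hlv0 _
      fun k hk => (mem_filter.1 hk).2) hμδ).trans (le_of_eq ?_)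
    rw [hlv, ← Real.rpow_mul (by linarith), show -levC * -δ = levC * δ by ring, ← hρd]
    ring
  have hgeo : ∑ k ∈ T, xl ^ e * r ^ k ≤ r / (r - 1) := by
    have := sum_geom_top (Real.rpow_pos_of_pos hxl0 e) hr1 zero_le_one T (fun k hk => ?_)
    · linarith
    have hk' := (mem_filter.1 hk).2
    rw [hr, ← Real.rpow_natCast, ← Real.rpow_mul zero_le_two, mul_comm e, Real.rpow_mul zero_le_two,
      Real.rpow_natCast, ← Real.mul_rpow hxl0.le (by positivity)]
    exact Real.rpow_le_one (by positivity) ((hk'.trans (min_le_right _ _)).trans (by norm_num))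
      (by norm_num [he])
  have hexp : Λ ^ 2 * Real.exp (-(Λ / 200)) ≤ 80000 := by
    have := Real.quadratic_le_exp_of_nonneg (show 0 ≤ Λ / 200 by linarith)
    rw [Real.exp_neg, ← div_eq_mul_inv, div_le_iff₀ (Real.exp_pos _)]
    nlinarith
  calc ∑ v ∈ S, ∑ w ∈ S.filter (fun w => v ≠ w ∧ dist2 P.ψ v w < 1 / 2), P.gTerm v w
      ≤ ∑ v ∈ S, ∑ w ∈ S, max C0 0 * (max Cf 0 * Λ ^ 2 * band v w + top v w / x0 +
          ∑ k ∈ T, lev k v w) := by
        refine sum_le_sum fun v hv => ?_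
        rw [sum_filter]
        refine sum_le_sum fun w hw' => ?_
        split_ifs with h
        · exact hpt v hv w hw' h
        · refine mul_nonneg (le_max_right _ _) (add_nonneg (add_nonneg (mul_nonneg (by positivity)
            ?_) (div_nonneg ?_ hx0.le)) (sum_nonneg fun k _ => ?_))
          all_goals
            simp only [hbandd, htopd, hlevd]
            split_ifs
          exacts [div_nonneg (mul_nonneg (hw v) (hw w)) (le_max_of_le_left
              (mul_nonneg (hP.nonneg v) (Nat.cast_nonneg _))), le_rfl,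
            mul_nonneg (mul_nonneg (hw v) (hw w))
              (pow_nonneg (le_trans zero_le_one (BilinearAux.one_le_hFac _ _)) _), le_rfl,
            div_nonneg (mul_nonneg (le_trans zero_le_one (BilinearAux.one_le_hFac _ _))
              (mul_nonneg (hw v) (hw w))) (by positivity), le_rfl]
    _ = max C0 0 * (max Cf 0 * Λ ^ 2 * ∑ v ∈ S, ∑ w ∈ S, band v w +
          (∑ v ∈ S, ∑ w ∈ S, top v w) / x0 + ∑ k ∈ T, ∑ v ∈ S, ∑ w ∈ S, lev k v w) := by
        simp only [← mul_sum, sum_add_distrib, sum_div]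
        rw [sum_comm (s := T)]
        exact congrArg₂ (fun a b => max C0 0 * (a + b)) rfl (sum_congr rfl fun v _ => sum_comm)
    _ ≤ max C0 0 * (max Cf 0 * Λ ^ 2 * (max Cb 0 * Real.exp (-(Λ / 200)) * μ2) +
          max Cm 0 * μ2 / x0 + ∑ k ∈ T, (Cl * μ2 * (xl ^ e * r ^ k) +
            (if lv ≤ xl * 2 ^ k then 2 * Cd * μ ^ (1 + δ) * (xl * 2 ^ k) ^ (-δ) else 0))) := by
        refine mul_le_mul_of_nonneg_left (add_le_add (add_le_add
          (mul_le_mul_of_nonneg_left ?_ (by positivity))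
          (div_le_div_of_nonneg_right ?_ hx0.le)) (sum_le_sum hl)) (le_max_right _ _)
        · simp only [hbandd, ← sum_filter, hxl]
          exact hb.trans (by gcongr; exact le_max_left _ _)
        · simp only [htopd, ← sum_filter]
          exact hm.trans (mul_le_mul_of_nonneg_right (le_max_left _ _) hμ)
    _ ≤ max C0 0 * (max Cf 0 * max Cb 0 * 80000 * μ2 + max Cm 0 / x0 * μ2 +
          (Cl * (r / (r - 1)) * μ2 + 2 * Cd / (1 - ρ) * (μ ^ (1 + δ) * Λ ^ (levC * δ)))) := by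
        refine mul_le_mul_of_nonneg_left (add_le_add (add_le_add ?_ (le_of_eq (by ring))) ?_)
          (le_max_right _ _)
        · have := mul_le_mul_of_nonneg_left hexp
            (show 0 ≤ max Cf 0 * max Cb 0 * μ2 by positivity)
          linarith
        · rw [sum_add_distrib, ← mul_sum]
          refine add_le_add ?_ hgeoδ
          have := mul_le_mul_of_nonneg_left hgeo (mul_nonneg hCl hμ)
          linarith
    _ ≤ _ := by
        rw [mul_assoc (max C0 0)]
        refine mul_le_mul_of_nonneg_left ?_ (le_max_right _ _)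
        have hL : 0 ≤ μ ^ (1 + δ) * Λ ^ (levC * δ) :=
          mul_nonneg (Real.rpow_nonneg (by linarith) _) (Real.rpow_nonneg (by linarith) _)
        have hA : 0 ≤ max Cf 0 * max Cb 0 * 80000 + max Cm 0 / x0 + Cl * (r / (r - 1)) := by
          have : 0 < r - 1 := by linarith
          positivity
        have hB : 0 ≤ 2 * Cd / (1 - ρ) := div_nonneg (by positivity) (by linarith)
        nlinarith [mul_nonneg hA hL, mul_nonneg hB hμ]

theorem gTerm_nonneg {P : Sys} (hψ : ∀ q, 0 ≤ P.ψ q) (q r : ℕ) : 0 ≤ P.gTerm q r := by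
  refine mul_nonneg (div_nonneg (mul_nonneg (BilinearAux.wt_nonneg hψ q)
    (BilinearAux.wt_nonneg hψ r)) ?_) (sum_nonneg fun n _ => ?_)
  · exact le_max_of_le_left (mul_nonneg (hψ q) (Nat.cast_nonneg _))
  · exact mul_nonneg (zero_le_one.trans (BilinearAux.one_le_hFac _ _))
      (prod_nonneg fun p hp => zero_le_one.trans (BilinearAux.one_le_ratio
        (Nat.prime_of_mem_primeFactors (mem_filter.1 hp).1)))

/-- One window of weight at least `Λ ^ η` has a second moment of the order of its square. -/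
theorem exists_secondMoment_le (η : ℝ) (hη : 0 < η) :
    ∃ C lam0 : ℝ, ∀ P : Sys, P.Ok0 lam0 → ∀ Λ : ℝ, (∀ q ∈ P.S, P.lam q = Λ) →
      Λ ^ η ≤ mass P.ψ P.S → 1 ≤ mass P.ψ P.S →
      ∑ q ∈ P.S, ∑ r ∈ P.S, P.ov q r ≤ C * mass P.ψ P.S ^ 2 := by
  set δ : ℝ := min η 1 / (4 * levC) with hδd
  have hlev : (0 : ℝ) < levC := by norm_num [levC]
  have hδ : 0 < δ := div_pos (lt_min hη one_pos) (by positivity)
  have hδ1 : δ ≤ 1 / 100 := by
    rw [hδd, div_le_iff₀ (by positivity)]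
    refine (min_le_right _ _).trans ?_
    norm_num [levC]
  obtain ⟨C1, l1, hC1, h1⟩ := exists_oneWindow_le δ hδ hδ1
  obtain ⟨C3, l3, h3⟩ := exists_ov_far_le
  obtain ⟨C4, h4⟩ := exists_hFac_large_le
  obtain ⟨C5, l5, h5⟩ := exists_sum_excTerm_le
  refine ⟨2 + 2 * (C1 * 3) + max C3 0 * max C4 0 * 2 + max C5 0,
    max (max l1 l3) (max l5 2), fun P hP Λ hΛ hμη hμ1 => ?_⟩
  have hP1 : P.Ok0 l1 := ok_mono hP (le_trans (le_max_left _ _) (le_max_left _ _))
  have hP3 : P.Ok0 l3 := ok_mono hP (le_trans (le_max_right _ _) (le_max_left _ _))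
  have hP5 : P.Ok0 l5 := ok_mono hP (le_trans (le_max_left _ _) (le_max_right _ _))
  set μ := mass P.ψ P.S with hμ
  have hμ0 : 0 < μ := by linarith
  have hμsq : μ ≤ μ ^ 2 := by nlinarith
  obtain ⟨q0, hq0⟩ : P.S.Nonempty := by
    rcases P.S.eq_empty_or_nonempty with h | h
    · rw [hμ, h] at hμ1; norm_num [mass] at hμ1
    · exact h
  have hΛ1 : 1 ≤ Λ := hΛ q0 hq0 ▸ le_trans one_le_two
    (le_trans (le_trans (le_max_right _ _) (le_max_right _ _)) (hP.lam_ge q0 hq0))
  have hloss : μ ^ (1 + δ) * Λ ^ (levC * δ) ≤ μ ^ 2 := by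
    have e : levC * δ ≤ η * (1 - δ) := by
      have : levC * δ = min η 1 / 4 := by rw [hδd]; field_simp
      nlinarith [min_le_left η 1]
    calc μ ^ (1 + δ) * Λ ^ (levC * δ) ≤ μ ^ (1 + δ) * μ ^ (1 - δ) := by
          refine mul_le_mul_of_nonneg_left ?_ (by positivity)
          refine (Real.rpow_le_rpow_of_exponent_le hΛ1 e).trans ?_
          rw [Real.rpow_mul (by linarith)]
          exact Real.rpow_le_rpow (by positivity) hμη (by linarith)
      _ = μ ^ 2 := by
          rw [← Real.rpow_add hμ0, show (1 + δ) + (1 - δ) = (2 : ℝ) by ring, Real.rpow_two]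
  have hw0 : ∀ q, 0 ≤ wt P.ψ q := BilinearAux.wt_nonneg hP.nonneg
  have hh0 : ∀ q r, 0 ≤ wt P.ψ q * wt P.ψ r *
      hFac (cutY (dist2 P.ψ q r)) (qd q r * qd r q) := fun q r =>
    mul_nonneg (mul_nonneg (hw0 q) (hw0 r)) (zero_le_one.trans (BilinearAux.one_le_hFac _ _))
  have key : ∀ q ∈ P.S, ∀ r ∈ P.S, P.ov q r ≤
      (if q = r then 2 * wt P.ψ q else 0) +
        2 * (if q ≠ r ∧ dist2 P.ψ q r < 1 / 2 then P.gTerm q r else 0) +
        max C3 0 * (if q ≠ r ∧ 1 / 2 ≤ dist2 P.ψ q r then wt P.ψ q * wt P.ψ r *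
          hFac (cutY (dist2 P.ψ q r)) (qd q r * qd r q) else 0) + P.excTerm q r := by
    intro q hq r hr
    have he := excTerm_nonneg hP q r
    by_cases hqr : q = r
    · subst hqr
      have := ov_self_le (le_trans (le_max_right l5 2) (le_max_right _ _)) hP hq
      simp only [ne_eq, not_true_eq_false, false_and, if_false, if_true, mul_zero, add_zero]
      linarith
    rw [if_neg hqr]
    rcases lt_or_ge (dist2 P.ψ q r) (1 / 2) with hD | hD
    · have := ov_le hP hq hr hqr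
      rw [if_pos ⟨hqr, hD⟩, if_neg fun h => absurd h.2 (not_le.2 hD)]
      linarith
    · have hb := h3 P hP3 q hq r hr hqr ((hΛ q hq).trans (hΛ r hr).symm) hD
      have hb' := mul_le_mul_of_nonneg_right (le_max_left C3 0) (hh0 q r)
      rw [if_neg fun h => absurd h.2 (not_lt.2 hD), if_pos ⟨hqr, hD⟩]
      linarith
  refine (sum_le_sum fun q hq => sum_le_sum fun r hr => key q hq r hr).trans ?_
  simp only [sum_add_distrib, ← mul_sum, ← sum_filter]
  have e0 : ∑ q ∈ P.S, ∑ r ∈ P.S.filter (fun r => q = r), wt P.ψ q = μ := by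
    rw [hμ, mass]
    exact sum_congr rfl fun q hq => by rw [filter_eq, if_pos hq, sum_singleton]
  have b1 : ∑ q ∈ P.S, ∑ r ∈ P.S.filter (fun r => q ≠ r ∧ dist2 P.ψ q r < 1 / 2), P.gTerm q r ≤
      C1 * 3 * μ ^ 2 := by
    refine (h1 P hP1 P.S subset_rfl Λ hΛ hμ1).trans ?_
    rw [mul_assoc]
    exact mul_le_mul_of_nonneg_left (by linarith) hC1
  have b3 := mul_le_mul_of_nonneg_left ((h4 P.ψ P.S hP.pos hP.nonneg).trans
    (mul_le_mul (le_max_left C4 0) (show μ + μ ^ 2 ≤ 2 * μ ^ 2 by linarith) (by positivity)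
      (le_max_right _ _))) (le_max_right C3 0)
  have b5 : ∑ q ∈ P.S, ∑ r ∈ P.S, P.excTerm q r ≤ max C5 0 * μ ^ 2 := (h5 P hP5).trans
    (mul_le_mul (le_max_left _ _) hμsq hμ0.le (le_max_right _ _))
  rw [e0]
  linarith

end Vale.Agent.P028.W1
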